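import Mathlib

/-!
# The square-lattice plane rotator with free boundary

`twoPoint R b x y` is `E_{R,b} cos (θ x - θ y)` on the box `[-R, R]²` (zero off the box).
-/

namespace Vale.Agent.P159

open MeasureTheory
open scoped Real

instance factTwoPiPos : Fact ((0 : ℝ) < 2 * π) := ⟨Real.two_pi_pos⟩

/-- The box `[-R, R]²` of `ℤ²`. -/
noncomputable def box (R : ℕ) : Finset (ℤ × ℤ) := Finset.Icc (-(R : ℤ), -(R : ℤ)) ((R : ℤ), (R : ℤ))

/-- Weight `1/2` on each ordered pair at distance one, so that each edge is counted once. -/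
noncomputable def nnWeight (p q : ℤ × ℤ) : ℝ :=
  if |p.1 - q.1| + |p.2 - q.2| = 1 then 1 / 2 else 0

/-- The sum of `cos (θ x - θ y)` over the edges of the box. -/
noncomputable def energy (R : ℕ) (θ : box R → AddCircle (2 * π)) : ℝ :=
  ∑ p : box R, ∑ q : box R, nnWeight p.1 q.1 * Real.Angle.cos (θ p - θ q)

/-- The free-boundary two-point function. -/
noncomputable def twoPoint (R : ℕ) (b : ℝ) (x y : ℤ × ℤ) : ℝ :=
  if h : x ∈ box R ∧ y ∈ box R then
    (∫ θ : box R → AddCircle (2 * π),
        Real.Angle.cos (θ ⟨x, h.1⟩ - θ ⟨y, h.2⟩) * Real.exp (b * energy R θ)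
        ∂Measure.pi fun _ => AddCircle.haarAddCircle) /
      ∫ θ : box R → AddCircle (2 * π), Real.exp (b * energy R θ)
        ∂Measure.pi fun _ => AddCircle.haarAddCircle
  else 0

end Vale.Agent.P159
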