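import Vale.Agent.P159.Gibbs

/-!
# Dependence of the two-point function on the couplings

The derivative is a covariance, so correlations increase with the couplings and with the graph.
-/

namespace Vale.Agent.P159

open MeasureTheory Filter Topology
open scoped Real

variable {V : Type*} [Fintype V]

lemma inter_line (J₀ J₁ : V → V → ℝ) (t : ℝ) (θ : V → Circ) :
    inter (fun u v => J₀ u v + t * J₁ u v) θ = inter J₀ θ + t * inter J₁ θ := by
  simp only [inter, Finset.mul_sum, ← Finset.sum_add_distrib]
  refine Finset.sum_congr rfl fun u _ => Finset.sum_congr rfl fun v _ => ?_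
  ring

lemma hasDerivAt_rawInt (J₀ J₁ : V → V → ℝ) {f : (V → Circ) → ℝ} (hf : Continuous f) (t : ℝ) :
    HasDerivAt (fun s => rawInt (fun u v => J₀ u v + s * J₁ u v) f)
      (rawInt (fun u v => J₀ u v + t * J₁ u v) fun θ => f θ * inter J₁ θ) t := by
  have c0 := continuous_inter J₀
  have c1 := continuous_inter J₁
  simp only [rawInt, inter_line]
  have h := hasDerivAt_integral_of_dominated_loc_of_deriv_le (μ := torus V)
    (F := fun s θ => f θ * Real.exp (inter J₀ θ + s * inter J₁ θ))
    (F' := fun s θ => f θ * inter J₁ θ * Real.exp (inter J₀ θ + s * inter J₁ θ))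
    (bound := fun θ =>
      |f θ * inter J₁ θ| * Real.exp (|inter J₀ θ| + (|t| + 1) * |inter J₁ θ|))
    (x₀ := t) (Metric.ball_mem_nhds t one_pos)
    (Eventually.of_forall fun s => Continuous.aestronglyMeasurable (by fun_prop))
    (integrable_cont (by fun_prop))
    (Continuous.aestronglyMeasurable (by fun_prop)) ?_ (integrable_cont (by fun_prop)) ?_
  · exact h.2
  · refine Eventually.of_forall fun θ s hs => ?_
    rw [Real.norm_eq_abs, abs_mul _ (Real.exp _), Real.abs_exp]
    refine mul_le_mul_of_nonneg_left (Real.exp_le_exp.2 ?_) (abs_nonneg _)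
    refine add_le_add (le_abs_self _) ((le_abs_self _).trans ?_)
    rw [abs_mul]
    refine mul_le_mul_of_nonneg_right ?_ (abs_nonneg _)
    have hs' := abs_lt.1 (by simpa [Real.dist_eq] using Metric.mem_ball.1 hs : |s - t| < 1)
    exact abs_le.2 ⟨by linarith [neg_abs_le t], by linarith [le_abs_self t]⟩
  · refine Eventually.of_forall fun θ s _ => ?_
    have h1 : HasDerivAt (fun r => inter J₀ θ + r * inter J₁ θ) (inter J₁ θ) s := by
      simpa using ((hasDerivAt_id s).mul_const (inter J₁ θ)).const_add (inter J₀ θ)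
    exact (h1.exp.const_mul (f θ)).congr_deriv (by ring)

lemma hasDerivAt_gibbs (J₀ J₁ : V → V → ℝ) {f : (V → Circ) → ℝ} (hf : Continuous f) (t : ℝ) :
    HasDerivAt (fun s => gibbs (fun u v => J₀ u v + s * J₁ u v) f)
      (covar (fun u v => J₀ u v + t * J₁ u v) f (inter J₁)) t := by
  have h1 := hasDerivAt_rawInt J₀ J₁ hf t
  have h2 := hasDerivAt_rawInt J₀ J₁ (continuous_const (y := (1 : ℝ))) t
  have hz := (rawInt_one_pos (fun u v => J₀ u v + t * J₁ u v)).ne'
  refine (h1.div h2 hz).congr_deriv ?_
  simp only [covar, gibbs, one_mul]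
  field_simp

/-- The derivative of the two-point function along a line of couplings. -/
lemma hasDerivAt_corrJ (J₀ J₁ : V → V → ℝ) (x y : V) (t : ℝ) :
    HasDerivAt (fun s => corrJ (fun u v => J₀ u v + s * J₁ u v) x y)
      (∑ i, ∑ j, J₁ i j * covar (fun u v => J₀ u v + t * J₁ u v) (cosD x y) (cosD i j)) t := by
  refine (hasDerivAt_gibbs J₀ J₁ (continuous_cosD x y) t).congr_deriv ?_
  set J := fun u v => J₀ u v + t * J₁ u v
  have e1 : inter J₁ = fun θ => ∑ i, ∑ j, J₁ i j * cosD i j θ := rfl
  have hc : ∀ i j, Continuous fun θ => J₁ i j * cosD i j θ := fun i j =>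
    continuous_const.mul (continuous_cosD i j)
  simp only [covar, e1, Finset.mul_sum, mul_sub, Finset.sum_sub_distrib]
  rw [gibbs_finsetSum J Finset.univ (f := fun i θ => ∑ j, cosD x y θ * (J₁ i j * cosD i j θ))
      fun i => continuous_finsetSum _ fun j _ => (continuous_cosD x y).mul (hc i j),
    gibbs_finsetSum J Finset.univ fun i => continuous_finsetSum _ fun j _ => hc i j,
    Finset.mul_sum]
  congr 1
  · refine Finset.sum_congr rfl fun i _ => ?_
    rw [gibbs_finsetSum J Finset.univ (f := fun j θ => cosD x y θ * (J₁ i j * cosD i j θ))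
      fun j => (continuous_cosD x y).mul (hc i j)]
    refine Finset.sum_congr rfl fun j _ => ?_
    rw [← gibbs_smul]
    exact congrArg _ (funext fun θ => by ring)
  · refine Finset.sum_congr rfl fun i _ => ?_
    rw [gibbs_finsetSum J Finset.univ fun j => hc i j, Finset.mul_sum]
    refine Finset.sum_congr rfl fun j _ => ?_
    rw [gibbs_smul]; ring

/-- Correlations increase with the couplings. -/
theorem corrJ_mono {J J' : V → V → ℝ} (hJ : ∀ u v, 0 ≤ J u v) (hle : ∀ u v, J u v ≤ J' u v)
    (x y : V) : corrJ J x y ≤ corrJ J' x y := by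
  set g := fun s => corrJ (fun u v => J u v + s * (J' u v - J u v)) x y with hg
  have hd := hasDerivAt_corrJ J (fun u v => J' u v - J u v) x y
  have hm : MonotoneOn g (Set.Icc 0 1) := by
    refine monotoneOn_of_hasDerivWithinAt_nonneg (convex_Icc 0 1)
      (fun s _ => (hd s).continuousAt.continuousWithinAt)
      (fun s _ => (hd s).hasDerivWithinAt) fun s hs => ?_
    rw [interior_Icc] at hs
    refine Finset.sum_nonneg fun i _ => Finset.sum_nonneg fun j _ =>
      mul_nonneg (sub_nonneg.2 (hle i j)) (covar_cosD_nonneg (fun u v => ?_) x y i j)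
    exact add_nonneg (hJ u v) (mul_nonneg hs.1.le (sub_nonneg.2 (hle u v)))
  simpa [hg] using hm (Set.left_mem_Icc.2 zero_le_one) (Set.right_mem_Icc.2 zero_le_one) zero_le_one

/-- The restriction of configurations along a map of sites. -/
noncomputable def restrictHom {W : Type*} (φ : V → W) : (W → Circ) →+ (V → Circ) where
  toFun θ := θ ∘ φ
  map_zero' := rfl
  map_add' _ _ := rfl

/-- Correlations increase with the graph. -/
theorem corrJ_embed {W : Type*} [Fintype W] {φ : V → W} (hφ : Function.Injective φ)
    {J : V → V → ℝ} {J' : W → W → ℝ} (hJ : ∀ u v, 0 ≤ J u v) (hJ' : ∀ a b, 0 ≤ J' a b)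
    (hle : ∀ u v, J u v ≤ J' (φ u) (φ v)) (x y : V) :
    corrJ J x y ≤ corrJ J' (φ x) (φ y) := by
  classical
  refine (corrJ_mono hJ hle x y).trans ?_
  set K : W → W → ℝ := fun a b => if a ∈ Set.range φ ∧ b ∈ Set.range φ then J' a b else 0
  have hK0 : ∀ a b, 0 ≤ K a b := fun a b => by
    simp only [K]; split_ifs
    exacts [hJ' a b, le_rfl]
  refine le_of_eq_of_le ?_ (corrJ_mono hK0 (fun a b => ?_) (φ x) (φ y))
  swap
  · simp only [K]; split_ifs
    exacts [le_rfl, hJ' a b]
  have hE : ∀ θ : W → Circ, inter K θ = inter (fun u v => J' (φ u) (φ v)) (restrictHom φ θ) := by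
    intro θ
    refine (Fintype.sum_of_injective φ hφ _ _ (fun a ha => ?_) fun u => ?_).symm
    · refine Finset.sum_eq_zero fun b _ => ?_
      simp only [K]
      rw [if_neg fun h => ha h.1, zero_mul]
    · refine Fintype.sum_of_injective φ hφ _ _ (fun b hb => ?_) fun v => ?_
      · simp only [K]
        rw [if_neg fun h => hb h.2, zero_mul]
      · simp [K, cosD, restrictHom]
  have hmp : MeasurePreserving (restrictHom φ) (torus W) (torus V) := by
    refine AddMonoidHom.measurePreserving (continuous_pi fun u => continuous_apply (φ u))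
      (fun θ => ⟨Function.extend φ θ 0, funext fun u => ?_⟩) (by simp)
    simp [restrictHom, hφ.extend_apply]
  have key : ∀ f : (V → Circ) → ℝ, Continuous f →
      rawInt (fun u v => J' (φ u) (φ v)) f = rawInt K fun θ => f (restrictHom φ θ) := by
    intro f hf
    have hF : Continuous fun θ : V → Circ =>
        f θ * Real.exp (inter (fun u v => J' (φ u) (φ v)) θ) := hf.mul (continuous_weight _)
    have h := integral_map hmp.measurable.aemeasurable (μ := torus W)
      (f := fun θ : V → Circ => f θ * Real.exp (inter (fun u v => J' (φ u) (φ v)) θ))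
      hF.aestronglyMeasurable
    rw [hmp.map_eq] at h
    simp only [rawInt, hE]
    exact h
  rw [corrJ, gibbs, key _ (continuous_cosD x y), key _ continuous_const]
  rfl

end Vale.Agent.P159
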