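import Vale.Agent.P159.Positivity

/-!
# Correlation inequalities for plane rotators on a finite set

For couplings `J u v ≥ 0`: the Ginibre inequality, supermultiplicativity of the two-point
function, and the Gaussian inequality, which bounds truncated four-point functions by products
of two-point functions.
-/

namespace Vale.Agent.P159

open MeasureTheory Filter Topology
open scoped Real

variable {V : Type*} [Fintype V]

/-- `cos (θ x - θ y)`. -/
noncomputable def cosD (x y : V) (θ : V → Circ) : ℝ := cosC (θ x - θ y)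

lemma continuous_cosD (x y : V) : Continuous (cosD x y) :=
  continuous_cosC.comp ((continuous_apply x).sub (continuous_apply y))

/-- The interaction `∑ J u v cos (θ u - θ v)`. -/
noncomputable def inter (J : V → V → ℝ) (θ : V → Circ) : ℝ := ∑ u, ∑ v, J u v * cosD u v θ

lemma continuous_inter (J : V → V → ℝ) : Continuous (inter J) :=
  continuous_finsetSum _ fun u _ => continuous_finsetSum _ fun v _ =>
    continuous_const.mul (continuous_cosD u v)

/-- The unnormalised integral of an observable. -/
noncomputable def rawInt (J : V → V → ℝ) (f : (V → Circ) → ℝ) : ℝ :=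
  ∫ θ, f θ * Real.exp (inter J θ) ∂torus V

/-- The expectation of an observable. -/
noncomputable def gibbs (J : V → V → ℝ) (f : (V → Circ) → ℝ) : ℝ :=
  rawInt J f / rawInt J fun _ => 1

/-- The covariance of two observables. -/
noncomputable def covar (J : V → V → ℝ) (f g : (V → Circ) → ℝ) : ℝ :=
  gibbs J (fun θ => f θ * g θ) - gibbs J f * gibbs J g

/-- The two-point function. -/
noncomputable def corrJ (J : V → V → ℝ) (x y : V) : ℝ := gibbs J (cosD x y)

lemma continuous_weight (J : V → V → ℝ) : Continuous fun θ => Real.exp (inter J θ) :=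
  Real.continuous_exp.comp (continuous_inter J)

lemma rawInt_one_pos (J : V → V → ℝ) : 0 < rawInt J fun _ => 1 := by
  simp only [rawInt, one_mul]
  exact integral_exp_pos (integrable_cont (continuous_weight J))

lemma rawInt_add (J : V → V → ℝ) {f g : (V → Circ) → ℝ} (hf : Continuous f) (hg : Continuous g) :
    rawInt J (fun θ => f θ + g θ) = rawInt J f + rawInt J g := by
  simp only [rawInt, add_mul]
  exact integral_add (integrable_cont (hf.mul (continuous_weight J)))
    (integrable_cont (hg.mul (continuous_weight J)))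

lemma rawInt_smul (J : V → V → ℝ) (r : ℝ) (f : (V → Circ) → ℝ) :
    rawInt J (fun θ => r * f θ) = r * rawInt J f := by
  simp only [rawInt, mul_assoc]
  exact integral_const_mul _ _

lemma gibbs_add (J : V → V → ℝ) {f g : (V → Circ) → ℝ} (hf : Continuous f) (hg : Continuous g) :
    gibbs J (fun θ => f θ + g θ) = gibbs J f + gibbs J g := by
  simp only [gibbs, rawInt_add J hf hg, add_div]

lemma gibbs_smul (J : V → V → ℝ) (r : ℝ) (f : (V → Circ) → ℝ) :
    gibbs J (fun θ => r * f θ) = r * gibbs J f := by
  simp only [gibbs, rawInt_smul, mul_div_assoc]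

lemma gibbs_sub (J : V → V → ℝ) {f g : (V → Circ) → ℝ} (hf : Continuous f) (hg : Continuous g) :
    gibbs J (fun θ => f θ - g θ) = gibbs J f - gibbs J g := by
  have h := gibbs_add J (f := fun θ => f θ - g θ) (g := g) (hf.sub hg) hg
  simp only [sub_add_cancel] at h
  linarith

lemma gibbs_finsetSum {ι : Type*} (J : V → V → ℝ) (s : Finset ι) {f : ι → (V → Circ) → ℝ}
    (hf : ∀ i, Continuous (f i)) :
    gibbs J (fun θ => ∑ i ∈ s, f i θ) = ∑ i ∈ s, gibbs J (f i) := by
  classical
  induction s using Finset.induction_on with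
  | empty => simp [gibbs, rawInt]
  | insert a s ha ih =>
    simp only [Finset.sum_insert ha]
    rw [gibbs_add J (hf a) (continuous_finsetSum _ fun i _ => hf i), ih]

lemma gibbs_one (J : V → V → ℝ) : gibbs J (fun _ => 1) = 1 :=
  div_self (rawInt_one_pos J).ne'

lemma gibbs_mono (J : V → V → ℝ) {f g : (V → Circ) → ℝ} (hf : Continuous f) (hg : Continuous g)
    (h : ∀ θ, f θ ≤ g θ) : gibbs J f ≤ gibbs J g := by
  refine div_le_div_of_nonneg_right ?_ (rawInt_one_pos J).le
  exact integral_mono (integrable_cont (hf.mul (continuous_weight J)))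
    (integrable_cont (hg.mul (continuous_weight J)))
    fun θ => mul_le_mul_of_nonneg_right (h θ) (Real.exp_pos _).le

/-- Duplicated form of the covariance. -/
lemma covar_double (J : V → V → ℝ) {f g : (V → Circ) → ℝ} (hf : Continuous f)
    (hg : Continuous g) :
    2 * (rawInt J fun _ => 1) ^ 2 * covar J f g =
      ∫ p, (f p.1 - f p.2) * (g p.1 - g p.2) * Real.exp (inter J p.1 + inter J p.2)
        ∂(torus V).prod (torus V) := by
  set w : (V → Circ) → ℝ := fun θ => Real.exp (inter J θ) with hw
  have hwc : Continuous w := continuous_weight J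
  have e : (fun p : (V → Circ) × (V → Circ) =>
      (f p.1 - f p.2) * (g p.1 - g p.2) * Real.exp (inter J p.1 + inter J p.2)) = fun p =>
      ((f p.1 * g p.1 * w p.1) * (1 * w p.2) + (1 * w p.1) * (f p.2 * g p.2 * w p.2)) -
        ((f p.1 * w p.1) * (g p.2 * w p.2) + (g p.1 * w p.1) * (f p.2 * w p.2)) := by
    funext p; rw [Real.exp_add]; simp only [hw]; ring
  have i : ∀ {a b : (V → Circ) → ℝ}, Continuous a → Continuous b →
      Integrable (fun p : (V → Circ) × (V → Circ) => a p.1 * b p.2)
        ((torus V).prod (torus V)) :=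
    fun ha hb => (integrable_cont ha).mul_prod (integrable_cont hb)
  have c1 : Continuous fun θ => f θ * g θ * w θ := (hf.mul hg).mul hwc
  have c2 : Continuous fun θ => 1 * w θ := continuous_const.mul hwc
  have c3 : Continuous fun θ => f θ * w θ := hf.mul hwc
  have c4 : Continuous fun θ => g θ * w θ := hg.mul hwc
  have iA : Integrable (fun p : (V → Circ) × (V → Circ) =>
      (f p.1 * g p.1 * w p.1) * (1 * w p.2) + (1 * w p.1) * (f p.2 * g p.2 * w p.2))
      ((torus V).prod (torus V)) := (i c1 c2).add (i c2 c1)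
  have iB : Integrable (fun p : (V → Circ) × (V → Circ) =>
      (f p.1 * w p.1) * (g p.2 * w p.2) + (g p.1 * w p.1) * (f p.2 * w p.2))
      ((torus V).prod (torus V)) := (i c3 c4).add (i c4 c3)
  rw [e, integral_sub iA iB, integral_add (i c1 c2) (i c2 c1), integral_add (i c3 c4) (i c4 c3),
    integral_prod_mul (fun θ => f θ * g θ * w θ) (fun θ => 1 * w θ),
    integral_prod_mul (fun θ => 1 * w θ) (fun θ => f θ * g θ * w θ),
    integral_prod_mul (fun θ => f θ * w θ) (fun θ => g θ * w θ),
    integral_prod_mul (fun θ => g θ * w θ) (fun θ => f θ * w θ)]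
  have hz := (rawInt_one_pos J).ne'
  simp only [covar, gibbs]
  field_simp
  simp only [rawInt, hw]
  ring

lemma circ_halves (t : Circ) : ∃ u : Circ, u + u = t := by
  induction t using QuotientAddGroup.induction_on with
  | _ x => exact ⟨((x / 2 : ℝ) : Circ), by rw [← AddCircle.coe_add]; simp⟩

/-- The change of variables `(α, β) ↦ (α + β, α - β)`. -/
noncomputable def mixHom (V : Type*) : (V → Circ) × (V → Circ) →+ (V → Circ) × (V → Circ) where
  toFun p := (p.1 + p.2, p.1 - p.2)
  map_zero' := by simp
  map_add' p q := by ext <;> simp <;> abel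

lemma measurePreserving_mix :
    MeasurePreserving (mixHom V) ((torus V).prod (torus V)) ((torus V).prod (torus V)) := by
  refine AddMonoidHom.measurePreserving
    ((continuous_fst.add continuous_snd).prodMk (continuous_fst.sub continuous_snd)) ?_ (by simp)
  rintro ⟨s, t⟩
  choose a ha using fun v => circ_halves (s v + t v)
  refine ⟨(a, s - a), Prod.ext (funext fun v => ?_) (funext fun v => ?_)⟩
  · simp [mixHom]
  · simp only [mixHom, AddMonoidHom.coe_mk, ZeroHom.coe_mk, Pi.sub_apply]
    rw [sub_sub_eq_add_sub, ha]; abel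

lemma integral_mix {F : (V → Circ) × (V → Circ) → ℝ} (hF : Continuous F) :
    ∫ p, F p ∂(torus V).prod (torus V) =
      ∫ p, F (p.1 + p.2, p.1 - p.2) ∂(torus V).prod (torus V) := by
  have h := (integral_map (measurePreserving_mix (V := V)).measurable.aemeasurable
    (μ := (torus V).prod (torus V)) (f := F) hF.aestronglyMeasurable).symm
  rw [(measurePreserving_mix (V := V)).map_eq] at h
  exact h.symm

lemma inter_mix (J : V → V → ℝ) (a b : V → Circ) :
    inter J (a + b) + inter J (a - b) = ∑ u, ∑ v, 2 * J u v * (cosD u v a * cosD u v b) := by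
  simp only [inter, ← Finset.sum_add_distrib]
  refine Finset.sum_congr rfl fun u _ => Finset.sum_congr rfl fun v _ => ?_
  have e1 : (a + b) u - (a + b) v = (a u - a v) + (b u - b v) := by
    simp only [Pi.add_apply]; abel
  have e2 : (a - b) u - (a - b) v = (a u - a v) - (b u - b v) := by
    simp only [Pi.sub_apply]; abel
  simp only [cosD, e1, e2]
  rw [cosC_add, cosC_sub (a u - a v) (b u - b v)]
  ring

/-- A covariance in the mixed variables. -/
lemma covar_mix (J : V → V → ℝ) {f g : (V → Circ) → ℝ} (hf : Continuous f) (hg : Continuous g) :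
    2 * (rawInt J fun _ => 1) ^ 2 * covar J f g =
      ∫ p, (f (p.1 + p.2) - f (p.1 - p.2)) * (g (p.1 + p.2) - g (p.1 - p.2)) *
        Real.exp (∑ u, ∑ v, 2 * J u v * (cosD u v p.1 * cosD u v p.2))
        ∂(torus V).prod (torus V) := by
  rw [covar_double J hf hg, integral_mix]
  · simp only [inter_mix]
  · exact (((hf.comp continuous_fst).sub (hf.comp continuous_snd)).mul
      ((hg.comp continuous_fst).sub (hg.comp continuous_snd))).mul
      (Real.continuous_exp.comp (((continuous_inter J).comp continuous_fst).add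
        ((continuous_inter J).comp continuous_snd)))

/-- The Ginibre inequality. -/
theorem covar_cosD_nonneg {J : V → V → ℝ} (hJ : ∀ u v, 0 ≤ J u v) (x y u v : V) :
    0 ≤ covar J (cosD x y) (cosD u v) := by
  set s : (V → Circ) → ℝ := fun a => sinC (a x - a y) * sinC (a u - a v) with hs
  have hsc : Continuous s :=
    (continuous_sinC.comp ((continuous_apply x).sub (continuous_apply y))).mul
      (continuous_sinC.comp ((continuous_apply u).sub (continuous_apply v)))
  have key : ∀ (i j : V) (a b : V → Circ), cosD i j (a + b) - cosD i j (a - b)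
      = -2 * (sinC (a i - a j) * sinC (b i - b j)) := by
    intro i j a b
    have e1 : (a + b) i - (a + b) j = (a i - a j) + (b i - b j) := by
      simp only [Pi.add_apply]; abel
    have e2 : (a - b) i - (a - b) j = (a i - a j) - (b i - b j) := by
      simp only [Pi.sub_apply]; abel
    simp only [cosD, e1, e2]
    rw [cosC_add, cosC_sub (a i - a j) (b i - b j)]
    ring
  have h := covar_mix J (continuous_cosD x y) (continuous_cosD u v)
  have hE : (fun p : (V → Circ) × (V → Circ) =>
      ∑ i, ∑ j, 2 * J i j * (cosD i j p.1 * cosD i j p.2)) ∈ sqCone V := by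
    have : (∑ i, ∑ j, fun p : (V → Circ) × (V → Circ) =>
        2 * J i j * (cosD i j p.1 * cosD i j p.2)) ∈ sqCone V :=
      sum_mem fun i _ => sum_mem fun j _ =>
        tensor_mem_sqCone (mul_nonneg zero_le_two (hJ i j)) (continuous_cosD i j)
    convert this using 1
    funext p; simp [Finset.sum_apply]
  have hpos := sqCone_exp_nonneg (tensor_mem_sqCone (r := 4) (by norm_num) hsc) hE
  have hz : 0 < 2 * (rawInt J fun _ => 1) ^ 2 := by have := rawInt_one_pos J; positivity
  refine nonneg_of_mul_nonneg_right ?_ hz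
  rw [h]
  refine hpos.trans_eq (integral_congr_ae (Eventually.of_forall fun p => ?_))
  simp only [key, hs]
  ring

/-- Products of cosines and products of sines are negatively correlated. -/
theorem covar_cos_sin_nonpos {J : V → V → ℝ} (hJ : ∀ u v, 0 ≤ J u v) (x y u v : V) :
    covar J (fun θ => cosC (θ x) * cosC (θ y)) (fun θ => sinC (θ u) * sinC (θ v)) ≤ 0 := by
  have hf : Continuous fun θ : V → Circ => cosC (θ x) * cosC (θ y) :=
    (continuous_cosC.comp (continuous_apply x)).mul (continuous_cosC.comp (continuous_apply y))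
  have hg : Continuous fun θ : V → Circ => sinC (θ u) * sinC (θ v) :=
    (continuous_sinC.comp (continuous_apply u)).mul (continuous_sinC.comp (continuous_apply v))
  have h := covar_mix J hf hg
  set C : V → (V → Circ) → ℝ := fun i a => cosC (a i) with hC
  set S : V → (V → Circ) → ℝ := fun i a => sinC (a i) with hS
  have mC : ∀ i, C i ∈ posPoly V := fun i => cos_mem_posPoly i
  have mS : ∀ i, S i ∈ posPoly V := fun i => sin_mem_posPoly i
  set P : (V → Circ) × (V → Circ) → ℝ :=
    ((fun p => (C x * S y) p.1 * (C x * S y) p.2) + fun p => (S x * C y) p.1 * (S x * C y) p.2) *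
    ((fun p => (S u * C v) p.1 * (C u * S v) p.2) + fun p => (C u * S v) p.1 * (S u * C v) p.2) *
    fun _ => (4 : ℝ) with hP
  have hPm : P ∈ pairCone V := mul_mem (mul_mem
    (add_mem (tensor_mem_pairCone (mul_mem (mC x) (mS y)) (mul_mem (mC x) (mS y)))
      (tensor_mem_pairCone (mul_mem (mS x) (mC y)) (mul_mem (mS x) (mC y))))
    (add_mem (tensor_mem_pairCone (mul_mem (mS u) (mC v)) (mul_mem (mC u) (mS v)))
      (tensor_mem_pairCone (mul_mem (mC u) (mS v)) (mul_mem (mS u) (mC v)))))
    (const_mem_pairCone (by norm_num))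
  have hE : (fun p : (V → Circ) × (V → Circ) =>
      ∑ i, ∑ j, 2 * J i j * (cosD i j p.1 * cosD i j p.2)) ∈ pairCone V := by
    have : (∑ i, ∑ j, (fun _ : (V → Circ) × (V → Circ) => 2 * J i j) *
        fun p : (V → Circ) × (V → Circ) => cosD i j p.1 * cosD i j p.2) ∈ pairCone V :=
      sum_mem fun i _ => sum_mem fun j _ => mul_mem
        (const_mem_pairCone (mul_nonneg zero_le_two (hJ i j)))
        (tensor_mem_pairCone (cosDiff_mem_posPoly i j) (cosDiff_mem_posPoly i j))
    convert this using 1
    funext p; simp [Finset.sum_apply]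
  have hpos := pairCone_exp_nonneg hPm hE
  have hz : 0 < 2 * (rawInt J fun _ => 1) ^ 2 := by have := rawInt_one_pos J; positivity
  refine nonpos_of_mul_nonpos_right ?_ hz
  rw [h]
  calc ∫ p, _ ∂(torus V).prod (torus V)
      = ∫ p, -(P p * Real.exp (∑ i, ∑ j, 2 * J i j * (cosD i j p.1 * cosD i j p.2)))
          ∂(torus V).prod (torus V) := by
        refine integral_congr_ae (Eventually.of_forall fun p => ?_)
        simp only [Pi.add_apply, Pi.sub_apply, cosC_add, cosC_sub, sinC_add, sinC_sub, hP, hC, hS,
          Pi.mul_apply]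
        ring
    _ ≤ 0 := by rw [integral_neg]; linarith

lemma rawInt_translate (J : V → V → ℝ) (c : Circ) (f : (V → Circ) → ℝ) :
    rawInt J f = rawInt J fun θ => f fun v => θ v + c := by
  unfold rawInt
  rw [← integral_add_right_eq_self (μ := torus V) (fun θ => f θ * Real.exp (inter J θ))
    (fun _ => c)]
  congr 1
  funext θ
  have : inter J (θ + fun _ => c) = inter J θ := by simp [inter, cosD]
  rw [this]
  rfl

lemma gibbs_translate (J : V → V → ℝ) (c : Circ) (f : (V → Circ) → ℝ) :
    gibbs J f = gibbs J fun θ => f fun v => θ v + c := by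
  rw [gibbs, gibbs, rawInt_translate J c f]

/-- Half of the two-point function. -/
lemma gibbs_cos_cos (J : V → V → ℝ) (x y : V) :
    gibbs J (fun θ => cosC (θ x) * cosC (θ y)) = corrJ J x y / 2 ∧
      gibbs J (fun θ => sinC (θ x) * sinC (θ y)) = corrJ J x y / 2 := by
  have hC : Continuous fun θ : V → Circ => cosC (θ x) * cosC (θ y) :=
    (continuous_cosC.comp (continuous_apply x)).mul (continuous_cosC.comp (continuous_apply y))
  have hS : Continuous fun θ : V → Circ => sinC (θ x) * sinC (θ y) :=
    (continuous_sinC.comp (continuous_apply x)).mul (continuous_sinC.comp (continuous_apply y))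
  have h1 : gibbs J (fun θ => cosC (θ x) * cosC (θ y))
      = gibbs J (fun θ => sinC (θ x) * sinC (θ y)) := by
    rw [gibbs_translate J ((π / 2 : ℝ) : Circ)]
    simp [cosC_add, cosC_coe, sinC_coe]
  have h2 : corrJ J x y = gibbs J (fun θ => cosC (θ x) * cosC (θ y))
      + gibbs J (fun θ => sinC (θ x) * sinC (θ y)) := by
    rw [← gibbs_add J hC hS, corrJ]
    exact congrArg _ (funext fun θ => cosC_sub _ _)
  constructor <;> linarith

/-- Isotropy of the four-point tensor. -/
lemma gibbs_four (J : V → V → ℝ) (x y u v : V) :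
    gibbs J (fun θ => cosC (θ x) * cosC (θ y) * (cosC (θ u) * cosC (θ v))) =
      gibbs J (fun θ => cosC (θ x) * cosC (θ y) * (sinC (θ u) * sinC (θ v))) +
      gibbs J (fun θ => cosC (θ x) * cosC (θ u) * (sinC (θ y) * sinC (θ v))) +
      gibbs J (fun θ => cosC (θ x) * cosC (θ v) * (sinC (θ y) * sinC (θ u))) := by
  set F : (V → Circ) → ℝ :=
    fun θ => cosC (θ x) * cosC (θ y) * (cosC (θ u) * cosC (θ v)) with hF
  have cc : ∀ i, Continuous fun θ : V → Circ => cosC (θ i) :=
    fun i => continuous_cosC.comp (continuous_apply i)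
  have cs : ∀ i, Continuous fun θ : V → Circ => sinC (θ i) :=
    fun i => continuous_sinC.comp (continuous_apply i)
  set ccss : V → V → V → V → (V → Circ) → ℝ :=
    fun a b c d θ => cosC (θ a) * cosC (θ b) * (sinC (θ c) * sinC (θ d)) with hcs
  have hq : ∀ a b c d, Continuous (ccss a b c d) :=
    fun a b c d => ((cc a).mul (cc b)).mul ((cs c).mul (cs d))
  have hrot : ∀ a b c d, gibbs J (ccss a b c d) = gibbs J (ccss c d a b) := by
    intro a b c d
    rw [gibbs_translate J ((π / 2 : ℝ) : Circ)]
    refine congrArg _ (funext fun θ => ?_)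
    simp [hcs, cosC_add, sinC_add, cosC_coe, sinC_coe]
    ring
  have hS4 : gibbs J (fun θ => sinC (θ x) * sinC (θ y) * (sinC (θ u) * sinC (θ v)))
      = gibbs J F := by
    rw [gibbs_translate J ((π / 2 : ℝ) : Circ)]
    simp [hF, sinC_add, cosC_coe, sinC_coe]
  have hsum : gibbs J (fun θ => 2 * F (fun i => θ i + ((π / 4 : ℝ) : Circ))
        + 2 * F (fun i => θ i + (((-(π / 4)) : ℝ) : Circ))) =
      gibbs J (fun θ => F θ + sinC (θ x) * sinC (θ y) * (sinC (θ u) * sinC (θ v))
        + ccss x y u v θ + ccss u v x y θ + ccss x u y v θ + ccss y v x u θ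
        + ccss x v y u θ + ccss y u x v θ) := by
    refine congrArg _ (funext fun θ => ?_)
    have hr : Real.sqrt 2 * Real.sqrt 2 = 2 := Real.mul_self_sqrt (by norm_num)
    simp only [hF, hcs, cosC_add, cosC_coe, sinC_coe, Real.cos_neg, Real.sin_neg,
      Real.cos_pi_div_four, Real.sin_pi_div_four]
    linear_combination ((cosC (θ x) * cosC (θ y) * (cosC (θ u) * cosC (θ v))
      + sinC (θ x) * sinC (θ y) * (sinC (θ u) * sinC (θ v))
      + cosC (θ x) * cosC (θ y) * (sinC (θ u) * sinC (θ v))
      + cosC (θ u) * cosC (θ v) * (sinC (θ x) * sinC (θ y))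
      + cosC (θ x) * cosC (θ u) * (sinC (θ y) * sinC (θ v))
      + cosC (θ y) * cosC (θ v) * (sinC (θ x) * sinC (θ u))
      + cosC (θ x) * cosC (θ v) * (sinC (θ y) * sinC (θ u))
      + cosC (θ y) * cosC (θ u) * (sinC (θ x) * sinC (θ v)))
        * (Real.sqrt 2 * Real.sqrt 2 + 2) / 4) * hr
  have hFc : Continuous F := ((cc x).mul (cc y)).mul ((cc u).mul (cc v))
  have hSc : Continuous fun θ : V → Circ =>
      sinC (θ x) * sinC (θ y) * (sinC (θ u) * sinC (θ v)) :=
    ((cs x).mul (cs y)).mul ((cs u).mul (cs v))
  have htr : ∀ c : Circ, Continuous fun θ : V → Circ => F fun i => θ i + c :=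
    fun c => hFc.comp (continuous_pi fun i => (continuous_apply i).add continuous_const)
  rw [gibbs_add J (by fun_prop) (by fun_prop), gibbs_smul,
    gibbs_smul, ← gibbs_translate, ← gibbs_translate] at hsum
  rw [gibbs_add J (by fun_prop) (by fun_prop), gibbs_add J (by fun_prop) (by fun_prop),
    gibbs_add J (by fun_prop) (by fun_prop), gibbs_add J (by fun_prop) (by fun_prop),
    gibbs_add J (by fun_prop) (by fun_prop), gibbs_add J (by fun_prop) (by fun_prop),
    gibbs_add J (by fun_prop) (by fun_prop), hS4, hrot u v x y, hrot y v x u,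
    hrot y u x v] at hsum
  change gibbs J F = gibbs J (ccss x y u v) + gibbs J (ccss x u y v) + gibbs J (ccss x v y u)
  linarith

/-- The Gaussian inequality in the form needed for the derivative of the two-point function. -/
theorem covar_cosD_le {J : V → V → ℝ} (hJ : ∀ u v, 0 ≤ J u v) (x y u v : V) :
    covar J (cosD x y) (cosD u v) ≤
      (corrJ J x u * corrJ J y v + corrJ J x v * corrJ J y u) / 2 := by
  have cc : ∀ i, Continuous fun θ : V → Circ => cosC (θ i) :=
    fun i => continuous_cosC.comp (continuous_apply i)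
  have cs : ∀ i, Continuous fun θ : V → Circ => sinC (θ i) :=
    fun i => continuous_sinC.comp (continuous_apply i)
  have n1 := covar_cos_sin_nonpos hJ x y u v
  have n2 := covar_cos_sin_nonpos hJ x u y v
  have n3 := covar_cos_sin_nonpos hJ x v y u
  simp only [covar, (gibbs_cos_cos J _ _).1, (gibbs_cos_cos J _ _).2] at n1 n2 n3
  have h4 := gibbs_four J x y u v
  have hrot1 : gibbs J (fun θ => sinC (θ x) * sinC (θ y) * (sinC (θ u) * sinC (θ v)))
      = gibbs J (fun θ => cosC (θ x) * cosC (θ y) * (cosC (θ u) * cosC (θ v))) := by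
    rw [gibbs_translate J ((π / 2 : ℝ) : Circ)]
    simp [sinC_add, cosC_coe, sinC_coe]
  have hrot2 : gibbs J (fun θ => sinC (θ x) * sinC (θ y) * (cosC (θ u) * cosC (θ v)))
      = gibbs J (fun θ => cosC (θ x) * cosC (θ y) * (sinC (θ u) * sinC (θ v))) := by
    rw [gibbs_translate J ((π / 2 : ℝ) : Circ)]
    simp [cosC_add, sinC_add, cosC_coe, sinC_coe]
  have e : (fun θ => cosD x y θ * cosD u v θ) = fun θ : V → Circ =>
      cosC (θ x) * cosC (θ y) * (cosC (θ u) * cosC (θ v)) +
      sinC (θ x) * sinC (θ y) * (sinC (θ u) * sinC (θ v)) +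
      cosC (θ x) * cosC (θ y) * (sinC (θ u) * sinC (θ v)) +
      sinC (θ x) * sinC (θ y) * (cosC (θ u) * cosC (θ v)) := by
    funext θ; simp only [cosD, cosC_sub]; ring
  rw [covar, e, gibbs_add J (by fun_prop) (by fun_prop), gibbs_add J (by fun_prop) (by fun_prop),
    gibbs_add J (by fun_prop) (by fun_prop), hrot1, hrot2]
  change _ - corrJ J x y * corrJ J u v ≤ _
  linarith

/-- Translation of all angles but one by that angle. -/
noncomputable def pinHom [DecidableEq V] (y : V) : (V → Circ) →+ (V → Circ) where
  toFun θ w := if w = y then θ y else θ w + θ y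
  map_zero' := by funext w; simp
  map_add' a b := by funext w; by_cases h : w = y <;> simp [h] <;> abel

lemma measurePreserving_pin [DecidableEq V] (y : V) :
    MeasurePreserving (pinHom y) (torus V) (torus V) := by
  refine AddMonoidHom.measurePreserving (continuous_pi fun w => ?_) ?_ rfl
  · by_cases h : w = y
    · simpa [pinHom, h] using continuous_apply y
    · simp only [pinHom, AddMonoidHom.coe_mk, ZeroHom.coe_mk, h, if_false]
      fun_prop
  · intro θ
    refine ⟨fun w => if w = y then θ y else θ w - θ y, funext fun w => ?_⟩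
    by_cases h : w = y <;> simp [pinHom, h]

lemma gibbs_sin_sin_nonneg {J : V → V → ℝ} (hJ : ∀ u v, 0 ≤ J u v) (x y z : V) :
    0 ≤ gibbs J (fun θ => sinC (θ x - θ y) * sinC (θ z - θ y)) := by
  classical
  rcases eq_or_ne x y with rfl | hx
  · simp [gibbs, rawInt, sinC_zero]
  rcases eq_or_ne z y with rfl | hz
  · simp [gibbs, rawInt, sinC_zero]
  refine div_nonneg ?_ (rawInt_one_pos J).le
  set F : (V → Circ) → ℝ :=
    fun θ => sinC (θ x - θ y) * sinC (θ z - θ y) * Real.exp (inter J θ)
  have hF : Continuous F :=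
    ((continuous_sinC.comp ((continuous_apply x).sub (continuous_apply y))).mul
      (continuous_sinC.comp ((continuous_apply z).sub (continuous_apply y)))).mul
      (continuous_weight J)
  have h := (integral_map (measurePreserving_pin y).measurable.aemeasurable
    (μ := torus V) (f := F) hF.aestronglyMeasurable)
  rw [(measurePreserving_pin y).map_eq] at h
  change 0 ≤ ∫ θ, F θ ∂torus V
  rw [h]
  have hE : (fun θ => inter J (pinHom y θ)) ∈ posPoly V := by
    have : (∑ i, ∑ j, (fun _ : V → Circ => J i j) * fun θ => cosD i j (pinHom y θ))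
        ∈ posPoly V := by
      refine sum_mem fun i _ => sum_mem fun j _ => mul_mem (const_mem_posPoly (hJ i j)) ?_
      by_cases hi : i = y <;> by_cases hj : j = y
      · simp [cosD, pinHom, hi, hj, cosC_zero]
        exact one_mem _
      · simpa [cosD, pinHom, hi, hj, cosC_neg] using cos_mem_posPoly j
      · simpa [cosD, pinHom, hi, hj] using cos_mem_posPoly i
      · simpa [cosD, pinHom, hi, hj] using cosDiff_mem_posPoly i j
    convert this using 1
    funext θ; simp [inter, Finset.sum_apply]
  refine (posPoly_exp_nonneg (mul_mem (sin_mem_posPoly x) (sin_mem_posPoly z)) hE).trans_eq ?_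
  simp [F, pinHom, hx, hz]

/-- Supermultiplicativity of the two-point function. -/
theorem corrJ_mul_le {J : V → V → ℝ} (hJ : ∀ u v, 0 ≤ J u v) (x y z : V) :
    corrJ J x y * corrJ J z y ≤ corrJ J x z := by
  have hs : Continuous fun θ : V → Circ => sinC (θ x - θ y) * sinC (θ z - θ y) :=
    (continuous_sinC.comp ((continuous_apply x).sub (continuous_apply y))).mul
      (continuous_sinC.comp ((continuous_apply z).sub (continuous_apply y)))
  have e : cosD x z = fun θ : V → Circ =>
      cosD x y θ * cosD z y θ + sinC (θ x - θ y) * sinC (θ z - θ y) := by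
    funext θ
    rw [cosD, cosD, cosD, show θ x - θ z = (θ x - θ y) - (θ z - θ y) by abel, cosC_sub]
  have h1 := covar_cosD_nonneg hJ x y z y
  have h2 := gibbs_sin_sin_nonneg hJ x y z
  have h3 : corrJ J x z = gibbs J (fun θ => cosD x y θ * cosD z y θ)
      + gibbs J (fun θ => sinC (θ x - θ y) * sinC (θ z - θ y)) := by
    rw [corrJ, e]
    exact gibbs_add J ((continuous_cosD x y).mul (continuous_cosD z y)) hs
  simp only [covar] at h1
  simp only [corrJ] at h3 ⊢
  linarith

lemma corrJ_comm (J : V → V → ℝ) (x y : V) : corrJ J x y = corrJ J y x := by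
  rw [corrJ, corrJ]
  congr 1
  funext θ
  rw [cosD, cosD, ← cosC_neg, neg_sub]

lemma corrJ_nonneg {J : V → V → ℝ} (hJ : ∀ u v, 0 ≤ J u v) (x y : V) : 0 ≤ corrJ J x y := by
  refine div_nonneg (posPoly_exp_nonneg (cosDiff_mem_posPoly x y) ?_) (rawInt_one_pos J).le
  have : (∑ i, ∑ j, (fun _ : V → Circ => J i j) * cosD i j) ∈ posPoly V :=
    sum_mem fun i _ => sum_mem fun j _ =>
      mul_mem (const_mem_posPoly (hJ i j)) (cosDiff_mem_posPoly i j)
  convert this using 1
  funext θ; simp [inter, Finset.sum_apply]

lemma corrJ_le_one (J : V → V → ℝ) (x y : V) : corrJ J x y ≤ 1 :=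
  (gibbs_mono J (continuous_cosD x y) continuous_const
    fun θ => (abs_le.1 (abs_cosC_le_one _)).2).trans_eq (gibbs_one J)

lemma corrJ_self (J : V → V → ℝ) (x : V) : corrJ J x x = 1 := by
  have : cosD x x = fun _ : V → Circ => 1 := by funext θ; simp [cosD, cosC_zero]
  rw [corrJ, this, gibbs_one]

end Vale.Agent.P159
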