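import Vale.Agent.P159.Lattice

/-!
# The exponentially weighted susceptibility

Its derivative in `b` is at most a constant times its square, so exponential decay persists on an
interval of length proportional to the inverse of the susceptibility.
-/

namespace Vale.Agent.P159

open MeasureTheory Filter Topology
open scoped Real

/-- The sup distance on `ℤ²`. -/
def supDist (p q : ℤ × ℤ) : ℝ := ((max (p.1 - q.1).natAbs (p.2 - q.2).natAbs : ℕ) : ℝ)

lemma supDist_comm (p q : ℤ × ℤ) : supDist p q = supDist q p := by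
  unfold supDist; congr 1; omega

lemma supDist_triangle (p q r : ℤ × ℤ) : supDist p r ≤ supDist p q + supDist q r := by
  unfold supDist; exact_mod_cast (by omega :
    max (p.1 - r.1).natAbs (p.2 - r.2).natAbs ≤
      max (p.1 - q.1).natAbs (p.2 - q.2).natAbs + max (q.1 - r.1).natAbs (q.2 - r.2).natAbs)

lemma supDist_le_one_of_nnWeight {p q : ℤ × ℤ} (h : nnWeight p q ≠ 0) : supDist p q ≤ 1 := by
  have h1 : |p.1 - q.1| + |p.2 - q.2| = 1 := by
    by_contra hne; exact h (if_neg hne)
  have h2 := Int.natCast_natAbs (p.1 - q.1)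
  have h3 := Int.natCast_natAbs (p.2 - q.2)
  unfold supDist
  exact_mod_cast (by omega : max (p.1 - q.1).natAbs (p.2 - q.2).natAbs ≤ 1)

lemma sum_nnWeight_le (R : ℕ) (u : ℤ × ℤ) : ∑ v : box R, nnWeight u v.1 ≤ 2 := by
  rw [Finset.sum_coe_sort (box R) (fun v => nnWeight u v)]
  simp only [nnWeight]
  rw [← Finset.sum_filter, Finset.sum_const, nsmul_eq_mul]
  have hsub : (box R).filter (fun v => |u.1 - v.1| + |u.2 - v.2| = 1) ⊆
      ({(u.1 + 1, u.2), (u.1 - 1, u.2), (u.1, u.2 + 1), (u.1, u.2 - 1)} : Finset (ℤ × ℤ)) := by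
    intro v hv
    rw [Finset.mem_filter] at hv
    obtain ⟨-, h⟩ := hv
    simp only [Finset.mem_insert, Finset.mem_singleton, Prod.ext_iff]
    rcases abs_cases (u.1 - v.1) with ⟨e1, _⟩ | ⟨e1, _⟩ <;>
      rcases abs_cases (u.2 - v.2) with ⟨e2, _⟩ | ⟨e2, _⟩ <;> omega
  have h4 : ((box R).filter (fun v => |u.1 - v.1| + |u.2 - v.2| = 1)).card ≤ 4 :=
    (Finset.card_le_card hsub).trans Finset.card_le_four
  have : (((box R).filter (fun v => |u.1 - v.1| + |u.2 - v.2| = 1)).card : ℝ) ≤ 4 := by
    exact_mod_cast h4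
  linarith

/-- The weighted susceptibility seen from `x`. -/
noncomputable def wSus (R : ℕ) (a b : ℝ) (x : box R) : ℝ :=
  ∑ y : box R, Real.exp (a * supDist x.1 y.1) * corrJ (coupling R b) x y

/-- The derivative of the weighted susceptibility. -/
noncomputable def wSusDeriv (R : ℕ) (a b : ℝ) (x : box R) : ℝ :=
  ∑ y : box R, Real.exp (a * supDist x.1 y.1) *
    ∑ u : box R, ∑ v : box R, nnWeight u.1 v.1 * covar (coupling R b) (cosD x y) (cosD u v)

lemma coupling_line (R : ℕ) (b : ℝ) :
    coupling R b = fun p q : box R => 0 + b * nnWeight p.1 q.1 := by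
  funext p q; simp [coupling]

lemma hasDerivAt_wSus (R : ℕ) (a b : ℝ) (x : box R) :
    HasDerivAt (fun s => wSus R a s x) (wSusDeriv R a b x) b := by
  unfold wSus wSusDeriv
  refine HasDerivAt.fun_sum fun y _ => HasDerivAt.const_mul _ ?_
  have h := hasDerivAt_corrJ (fun _ _ : box R => (0 : ℝ))
    (fun p q => nnWeight p.1 q.1) x y b
  simp only [← coupling_line] at h
  exact h

lemma continuous_wSus (R : ℕ) (a : ℝ) (x : box R) : Continuous fun s => wSus R a s x :=
  continuous_iff_continuousAt.2 fun b => (hasDerivAt_wSus R a b x).continuousAt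

lemma wSus_mono {R : ℕ} {a b b' : ℝ} (hb : 0 ≤ b) (hbb : b ≤ b') (x : box R) :
    wSus R a b x ≤ wSus R a b' x := by
  refine Finset.sum_le_sum fun y _ => mul_le_mul_of_nonneg_left ?_ (Real.exp_pos _).le
  exact corrJ_mono (coupling_nonneg hb)
    (fun p q => mul_le_mul_of_nonneg_right hbb (nnWeight_nonneg _ _)) x y

lemma wSus_nonneg {R : ℕ} {a b : ℝ} (hb : 0 ≤ b) (x : box R) : 0 ≤ wSus R a b x :=
  Finset.sum_nonneg fun _ _ => mul_nonneg (Real.exp_pos _).le (corrJ_nonneg (coupling_nonneg hb) _ _)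

/-- The derivative is bounded by the square of the susceptibility. -/
lemma wSusDeriv_le {R : ℕ} {a b M : ℝ} (ha : 0 ≤ a) (hb : 0 ≤ b)
    (hM : ∀ z : box R, wSus R a b z ≤ M) (x : box R) :
    wSusDeriv R a b x ≤ 2 * Real.exp a * M ^ 2 := by
  set C := corrJ (coupling R b) with hC
  set E : box R → box R → ℝ := fun p q => Real.exp (a * supDist p.1 q.1) with hE
  have hC0 : ∀ p q, 0 ≤ C p q := fun p q => corrJ_nonneg (coupling_nonneg hb) p q
  have hE0 : ∀ p q, 0 ≤ E p q := fun p q => (Real.exp_pos _).le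
  have hM0 : 0 ≤ M := (wSus_nonneg hb x).trans (hM x)
  set n : box R → box R → ℝ := fun p q => nnWeight p.1 q.1 with hn
  have hn0 : ∀ p q, 0 ≤ n p q := fun p q => nnWeight_nonneg _ _
  have hsymm : ∀ p q, n p q = n q p := fun p q => by
    simp only [hn, nnWeight]; rw [abs_sub_comm, abs_sub_comm p.1.2]
  have hrow : ∀ p, ∑ q, n p q ≤ 2 := fun p => sum_nnWeight_le R p.1
  have key : ∀ y u v, E x y * (n u v * covar (coupling R b) (cosD x y) (cosD u v)) ≤
      Real.exp a * (n u v * (E x u * C x u * (E v y * C v y)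
        + E x v * C x v * (E u y * C u y)) / 2) := by
    intro y u v
    by_cases h0 : n u v = 0
    · simp [h0]
    have hd : supDist u.1 v.1 ≤ 1 := supDist_le_one_of_nnWeight h0
    have hcov := covar_cosD_le (coupling_nonneg (R := R) hb) x y u v
    rw [corrJ_comm _ y v, corrJ_comm _ y u, ← hC] at hcov
    have hexp : ∀ p q : box R, supDist p.1 q.1 ≤ 1 →
        E x y ≤ Real.exp a * (E x p * E q y) := by
      intro p q hpq
      simp only [hE, ← Real.exp_add]
      refine Real.exp_le_exp.2 ?_
      have t1 := supDist_triangle x.1 p.1 y.1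
      have t2 := supDist_triangle p.1 q.1 y.1
      nlinarith
    have h1 := mul_le_mul_of_nonneg_right (hexp u v hd) (mul_nonneg (hC0 x u) (hC0 v y))
    have h2 := mul_le_mul_of_nonneg_right (hexp v u (by rwa [supDist_comm]))
      (mul_nonneg (hC0 x v) (hC0 u y))
    calc E x y * (n u v * covar (coupling R b) (cosD x y) (cosD u v))
        ≤ E x y * (n u v * ((C x u * C v y + C x v * C u y) / 2)) :=
          mul_le_mul_of_nonneg_left (mul_le_mul_of_nonneg_left hcov (hn0 u v)) (hE0 x y)
      _ = n u v * (E x y * (C x u * C v y) + E x y * (C x v * C u y)) / 2 := by ring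
      _ ≤ n u v * (Real.exp a * (E x u * E v y) * (C x u * C v y)
            + Real.exp a * (E x v * E u y) * (C x v * C u y)) / 2 := by
          gcongr
          exact hn0 u v
      _ = _ := by ring
  have hs : ∀ v, ∑ y, E v y * C v y ≤ M := hM
  have hone : ∑ u, ∑ v, n u v * (E x u * C x u) ≤ 2 * M := by
    calc ∑ u, ∑ v, n u v * (E x u * C x u) = ∑ u, (∑ v, n u v) * (E x u * C x u) := by
          simp only [Finset.sum_mul]
      _ ≤ ∑ u, 2 * (E x u * C x u) := Finset.sum_le_sum fun u _ =>
          mul_le_mul_of_nonneg_right (hrow u) (mul_nonneg (hE0 _ _) (hC0 _ _))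
      _ = 2 * ∑ u, E x u * C x u := (Finset.mul_sum _ _ _).symm
      _ ≤ 2 * M := by linarith [hs x]
  have htwo : ∑ u, ∑ v, n u v * (E x v * C x v) ≤ 2 * M := by
    rw [Finset.sum_comm]
    calc ∑ v, ∑ u, n u v * (E x v * C x v) = ∑ v, ∑ u, n v u * (E x v * C x v) :=
          Finset.sum_congr rfl fun v _ => Finset.sum_congr rfl fun u _ => by rw [hsymm]
      _ ≤ 2 * M := hone
  calc wSusDeriv R a b x
      = ∑ y, ∑ u, ∑ v, E x y * (n u v * covar (coupling R b) (cosD x y) (cosD u v)) := by
        simp only [wSusDeriv, Finset.mul_sum, hE, hn]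
    _ ≤ ∑ y, ∑ u, ∑ v, Real.exp a * (n u v * (E x u * C x u * (E v y * C v y)
        + E x v * C x v * (E u y * C u y)) / 2) :=
        Finset.sum_le_sum fun y _ => Finset.sum_le_sum fun u _ =>
          Finset.sum_le_sum fun v _ => key y u v
    _ = ∑ u, ∑ v, Real.exp a * (n u v * (E x u * C x u * (∑ y, E v y * C v y)
        + E x v * C x v * (∑ y, E u y * C u y)) / 2) := by
        rw [Finset.sum_comm]
        refine Finset.sum_congr rfl fun u _ => ?_
        rw [Finset.sum_comm]
        refine Finset.sum_congr rfl fun v _ => ?_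
        simp only [mul_add, Finset.mul_sum, ← Finset.sum_add_distrib, Finset.sum_div]
    _ ≤ ∑ u, ∑ v, Real.exp a * (n u v * (E x u * C x u * M + E x v * C x v * M) / 2) := by
        gcongr with u _ v _
        · exact hn0 u v
        · exact mul_nonneg (hE0 _ _) (hC0 _ _)
        · exact hs v
        · exact mul_nonneg (hE0 _ _) (hC0 _ _)
        · exact hs u
    _ = Real.exp a * M / 2 * ((∑ u, ∑ v, n u v * (E x u * C x u))
        + ∑ u, ∑ v, n u v * (E x v * C x v)) := by
        simp only [← Finset.sum_add_distrib, Finset.mul_sum]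
        refine Finset.sum_congr rfl fun u _ => Finset.sum_congr rfl fun v _ => ?_
        ring
    _ ≤ Real.exp a * M / 2 * (2 * M + 2 * M) :=
        mul_le_mul_of_nonneg_left (add_le_add hone htwo) (by positivity)
    _ = 2 * Real.exp a * M ^ 2 := by ring

/-- Riccati comparison: the susceptibility at most doubles on an interval of length `1/(8e^a M₀)`. -/
theorem wSus_le_double {R : ℕ} {a b h M₀ : ℝ} (ha : 0 ≤ a) (hb : 0 ≤ b) (hh : 0 ≤ h)
    (hM₀ : ∀ z : box R, wSus R a b z ≤ M₀) (hlt : 8 * Real.exp a * h * M₀ < 1) (x : box R) :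
    wSus R a (b + h) x ≤ 2 * M₀ := by
  have hne : (Finset.univ : Finset (box R)).Nonempty := ⟨x, Finset.mem_univ x⟩
  set g : ℝ → ℝ := fun s => Finset.univ.sup' hne (fun z => wSus R a s z) with hg
  have hgc : Continuous g :=
    Continuous.finset_sup'_apply hne fun z _ => continuous_wSus R a z
  have hgz : ∀ s z, wSus R a s z ≤ g s := fun s z =>
    Finset.le_sup' (fun z => wSus R a s z) (Finset.mem_univ z)
  have hM₀1 : 0 < M₀ := by
    refine lt_of_lt_of_le one_pos (le_trans ?_ (hM₀ x))
    have : Real.exp (a * supDist x.1 x.1) * corrJ (coupling R b) x x = 1 := by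
      simp [supDist, corrJ_self]
    rw [← this]
    exact Finset.single_le_sum
      (f := fun y : box R => Real.exp (a * supDist x.1 y.1) * corrJ (coupling R b) x y)
      (fun y _ => mul_nonneg (Real.exp_pos _).le
        (corrJ_nonneg (coupling_nonneg hb) x y)) (Finset.mem_univ x)
  have step : ∀ t ∈ Set.Icc b (b + h), g t ≤ M₀ + 2 * Real.exp a * g t ^ 2 * h := by
    intro t ht
    refine Finset.sup'_le hne _ fun z _ => ?_
    have hmv := (convex_Icc b t).image_sub_le_mul_sub_of_deriv_le
      (continuous_wSus R a z).continuousOn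
      (fun s _ => (hasDerivAt_wSus R a s z).differentiableAt.differentiableWithinAt)
      (C := 2 * Real.exp a * g t ^ 2) (fun s hs => by
        rw [interior_Icc] at hs
        rw [(hasDerivAt_wSus R a s z).deriv]
        exact wSusDeriv_le ha (hb.trans hs.1.le)
          (fun w => (wSus_mono (hb.trans hs.1.le) hs.2.le w).trans (hgz t w)) z)
      b (Set.left_mem_Icc.2 ht.1) t (Set.right_mem_Icc.2 ht.1) ht.1
    have hq : 2 * Real.exp a * g t ^ 2 * (t - b) ≤ 2 * Real.exp a * g t ^ 2 * h :=
      mul_le_mul_of_nonneg_left (by linarith [ht.2]) (by positivity)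
    linarith [hM₀ z]
  refine (hgz _ x).trans (le_of_not_gt fun hbad => ?_)
  have h0 : g b ≤ 2 * M₀ :=
    (Finset.sup'_le hne _ fun z _ => hM₀ z).trans (by linarith)
  obtain ⟨t, ht, hte⟩ := intermediate_value_Icc (by linarith : b ≤ b + h) hgc.continuousOn
    ⟨h0, hbad.le⟩
  have h3 := step t ht
  rw [hte] at h3
  nlinarith

end Vale.Agent.P159
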