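import Vale.Agent.P159.McBryan

/-!
# The correlation-length exponent exceeds one half

Combining exponential and power decay makes the weighted susceptibility `O(m^(δ-2))` with
`δ = 1/(256 b)`, so positive mass persists for a time of order `m^(2-δ)`.
-/

namespace Vale.Agent.P159

open MeasureTheory Filter Topology
open scoped Real

/-- Weighted susceptibility with the power-law gain. -/
lemma wSus_le_power {R : ℕ} {b μ : ℝ} (hb : 1 / 64 ≤ b) (hμ0 : 0 < μ) (hμ1 : μ ≤ 1)
    (hμ : μ ≤ mass b) (x : box R) :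
    wSus R (μ / 4) b x ≤ 240 * μ ^ (1 / (256 * b) - 2) := by
  have hb0 : 0 < b := by linarith
  set δ := 1 / (256 * b) with hδ
  have hδ1 : δ ≤ 1 := by rw [hδ, div_le_one (by positivity)]; linarith
  have hδ0 : 0 ≤ δ := by rw [hδ]; positivity
  set r := Real.exp (-(μ / 4)) with hr
  have hr0 : 0 < r := Real.exp_pos _
  have hr1 : r < 1 := Real.exp_lt_one_iff.2 (by linarith)
  have hinv : 1 / (1 - r) ≤ 5 / μ := by
    have h1 : r * (1 + μ / 4) ≤ 1 := by
      calc r * (1 + μ / 4) ≤ r * Real.exp (μ / 4) :=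
            mul_le_mul_of_nonneg_left (by linarith [Real.add_one_le_exp (μ / 4)]) hr0.le
        _ = 1 := by rw [hr, ← Real.exp_add]; simp
    rw [div_le_div_iff₀ (by linarith) hμ0]
    nlinarith
  set g : ℕ → ℝ := fun k => ((k : ℝ) + 1) ^ (-δ) * r ^ k with hg
  have hg0 : ∀ k, 0 ≤ g k := fun k => by positivity
  set d : ℤ × ℤ → ℕ := fun y => max (x.1.1 - y.1).natAbs (x.1.2 - y.2).natAbs with hd
  have hterm : ∀ y : box R,
      Real.exp (μ / 4 * supDist x.1 y.1) * corrJ (coupling R b) x y ≤ g (d y.1) := by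
    intro y
    set k := d y.1
    have hk : supDist x.1 y.1 = (k : ℝ) := rfl
    have h1 : corrJ (coupling R b) x y ≤ ((k : ℝ) + 1) ^ (-(1 / (128 * b))) :=
      corrJ_coupling_power hb x y
    have h2 : corrJ (coupling R b) x y ≤ Real.exp (-(μ * k)) := by
      have h := twoPoint_le_zero_corrInf R hb0.le x.1 y.1
      rw [twoPoint_eq, dif_pos ⟨x.2, y.2⟩] at h
      refine h.trans ((corrInf_le_exp hb0 hμ _).trans_eq ?_)
      rw [← hk, supDist_comm x.1]
      simp only [supDist, Prod.fst_zero, Prod.snd_zero, zero_sub, Prod.fst_sub, Prod.snd_sub,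
        Int.natAbs_neg]
    have hC0 : 0 ≤ corrJ (coupling R b) x y := corrJ_nonneg (coupling_nonneg hb0.le) _ _
    have h3 : corrJ (coupling R b) x y ≤ ((k : ℝ) + 1) ^ (-δ) * Real.exp (-(μ * k / 2)) := by
      refine (pow_le_pow_iff_left₀ hC0 (by positivity) two_ne_zero).1 ?_
      rw [sq, mul_pow, ← Real.rpow_natCast (((k : ℝ) + 1) ^ (-δ)), ← Real.rpow_mul (by positivity),
        ← Real.exp_nat_mul]
      refine (mul_le_mul h1 h2 hC0 (by positivity)).trans_eq ?_
      rw [hδ]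
      push_cast
      congr 2 <;> ring
    refine (mul_le_mul_of_nonneg_left h3 (Real.exp_pos _).le).trans_eq ?_
    rw [hk, hg, hr, mul_left_comm, ← Real.exp_add]
    dsimp only
    rw [← Real.exp_nat_mul]
    congr 2
    ring
  refine (Finset.sum_le_sum fun y _ => hterm y).trans ?_
  rw [Finset.sum_coe_sort (box R) (fun p => g (d p))]
  set N := (box R).sup d + 1
  refine (sum_shell_le R x.1 N g hg0
    fun y hy _ => Nat.lt_succ_of_le (Finset.le_sup (f := d) hy)).trans ?_
  have hk : ∀ k : ℕ, ((k : ℝ) + 1) * g k ≤ μ ^ (δ - 1) * ((((k : ℝ) + 1) * μ + 1) * r ^ k) := by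
    intro k
    have e : ((k : ℝ) + 1) * ((k : ℝ) + 1) ^ (-δ)
        = μ ^ (δ - 1) * (((k : ℝ) + 1) * μ) ^ (1 - δ) := by
      rw [Real.mul_rpow (by positivity) hμ0.le, mul_left_comm, ← Real.rpow_add hμ0,
        show δ - 1 + (1 - δ) = (0 : ℝ) by ring, Real.rpow_zero, mul_one, sub_eq_add_neg,
        Real.rpow_add (by positivity), Real.rpow_one]
    have h1 : (((k : ℝ) + 1) * μ) ^ (1 - δ) ≤ ((k : ℝ) + 1) * μ + 1 := by
      rcases le_total (((k : ℝ) + 1) * μ) 1 with h | h
      · have := Real.rpow_le_one (show 0 ≤ ((k : ℝ) + 1) * μ by positivity) h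
          (show 0 ≤ 1 - δ by linarith)
        linarith [show 0 ≤ ((k : ℝ) + 1) * μ by positivity]
      · have := Real.rpow_le_self_of_one_le h (show 1 - δ ≤ 1 by linarith)
        linarith
    simp only [hg]
    rw [← mul_assoc, e, mul_assoc]
    exact mul_le_mul_of_nonneg_left (mul_le_mul_of_nonneg_right h1 (by positivity)) (by positivity)
  have hgeo : ∑ k ∈ Finset.range N, r ^ k ≤ 1 / (1 - r) := by
    rw [one_div, ← tsum_geometric_of_lt_one hr0.le hr1]
    exact (summable_geometric_of_lt_one hr0.le hr1).sum_le_tsum _ fun i _ => pow_nonneg hr0.le i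
  have hgeo2 : ∑ k ∈ Finset.range N, ((k : ℝ) + 1) * r ^ k ≤ 1 / (1 - r) ^ 2 := by
    have hn : ‖r‖ < 1 := by rw [Real.norm_eq_abs, abs_of_pos hr0]; exact hr1
    have hs := (hasSum_coe_mul_geometric_of_norm_lt_one hn).add
      (hasSum_geometric_of_lt_one hr0.le hr1)
    have e : (fun k : ℕ => (k : ℝ) * r ^ k + r ^ k) = fun k : ℕ => ((k : ℝ) + 1) * r ^ k := by
      funext k; ring
    rw [e] at hs
    refine (sum_le_hasSum _ (fun i _ => by positivity) hs).trans_eq ?_
    have : (1 - r) ≠ 0 := by linarith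
    field_simp
    ring
  have hi0 : 0 ≤ 1 / (1 - r) := div_nonneg zero_le_one (by linarith)
  calc ∑ k ∈ Finset.range N, 8 * ((k : ℝ) + 1) * g k
      ≤ ∑ k ∈ Finset.range N, 8 * (μ ^ (δ - 1) * ((((k : ℝ) + 1) * μ + 1) * r ^ k)) :=
        Finset.sum_le_sum fun k _ => by
          rw [mul_assoc]; exact mul_le_mul_of_nonneg_left (hk k) (by norm_num)
    _ = 8 * μ ^ (δ - 1) * (μ * (∑ k ∈ Finset.range N, ((k : ℝ) + 1) * r ^ k)
          + ∑ k ∈ Finset.range N, r ^ k) := by
        simp only [Finset.mul_sum, ← Finset.sum_add_distrib]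
        exact Finset.sum_congr rfl fun k _ => by ring
    _ ≤ 8 * μ ^ (δ - 1) * (μ * (5 / μ) ^ 2 + 5 / μ) := by
        gcongr
        · exact hgeo2.trans (by rw [← one_div_pow]; exact pow_le_pow_left₀ hi0 hinv 2)
        · exact hgeo.trans hinv
    _ = 240 * μ ^ (δ - 2) := by
        rw [show δ - 1 = (δ - 2) + 1 by ring, Real.rpow_add hμ0, Real.rpow_one]
        field_simp
        ring

/-- **Quantitative openness with the improved exponent.** -/
theorem mass_margin_power {b b' : ℝ} (hb : 1 / 64 ≤ b) (hbb : b ≤ b') (h0 : mass b' = 0)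
    (hm : 0 < mass b) :
    (min (mass b) 1) ^ (2 - 1 / (256 * b)) ≤ 4000 * (b' - b) := by
  by_contra hlt
  rw [not_le] at hlt
  set μ := min (mass b) 1 with hμ
  have hμ0 : 0 < μ := lt_min hm one_pos
  have hμ1 : μ ≤ 1 := min_le_right _ _
  have hb0 : 0 < b := by linarith
  have hW : ∀ (R : ℕ) (z : box R), wSus R (μ / 4) b z ≤ 240 * μ ^ (1 / (256 * b) - 2) :=
    fun R z => wSus_le_power hb hμ0 hμ1 (min_le_left _ _) z
  clear_value μ
  generalize 1 / (256 * b) = δ at hlt hW
  have hP : 0 < μ ^ (δ - 2) := Real.rpow_pos_of_pos hμ0 _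
  have hea : Real.exp (μ / 4) ≤ 2 :=
    (Real.exp_le_exp.2 (by linarith)).trans exp_half_le_two
  have hprod : μ ^ (2 - δ) * μ ^ (δ - 2) = 1 := by
    rw [← Real.rpow_add hμ0]; simp
  have hh : 0 ≤ b' - b := sub_nonneg.2 hbb
  have hsmall : 8 * Real.exp (μ / 4) * (b' - b) * (240 * μ ^ (δ - 2)) < 1 := by
    have h1 : (b' - b) * μ ^ (δ - 2) ≤ μ ^ (2 - δ) / 4000 * μ ^ (δ - 2) :=
      mul_le_mul_of_nonneg_right (by linarith) hP.le
    rw [div_mul_eq_mul_div, hprod] at h1
    have h2 : Real.exp (μ / 4) * ((b' - b) * μ ^ (δ - 2)) ≤ 2 * (1 / 4000) :=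
      mul_le_mul hea h1 (mul_nonneg hh hP.le) zero_le_two
    calc 8 * Real.exp (μ / 4) * (b' - b) * (240 * μ ^ (δ - 2))
        = 1920 * (Real.exp (μ / 4) * ((b' - b) * μ ^ (δ - 2))) := by ring
      _ ≤ 1920 * (2 * (1 / 4000)) := mul_le_mul_of_nonneg_left h2 (by norm_num)
      _ < 1 := by norm_num
  have hall : ∀ (R : ℕ) (x : box R), wSus R (μ / 4) b' x ≤ 2 * (240 * μ ^ (δ - 2)) := by
    intro R x
    have h := wSus_le_double (a := μ / 4) (b := b) (h := b' - b) (by linarith) hb0.le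
      hh (hW R) hsmall x
    rwa [add_sub_cancel] at h
  have hK : 0 < 2 * (240 * μ ^ (δ - 2)) := mul_pos two_pos (mul_pos (by norm_num) hP)
  have := mass_ge_of_bound (hb0.trans_le hbb) hK (axisCorr_le_of_wSus (hb0.le.trans hbb) hall)
  rw [h0] at this
  linarith

/-- The correlation length diverges at least like the power `1/(2 - 1/(256 b_c))` of
`1/(b_c - b)`. -/
theorem mass_le_power {bc : ℝ} (hg : IsGLB {b : ℝ | 0 < b ∧ mass b = 0} bc) {b : ℝ} (hb : 0 < b)
    (hlt : b < bc) (hclose : bc - b < 1 / 4000) :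
    mass b ≤ (4000 * (bc - b)) ^ (1 / (2 - 1 / (256 * bc))) := by
  obtain ⟨h16, hzero, hbelow⟩ := critical_bound hg
  obtain ⟨hpos, -⟩ := hbelow b hb hlt
  have hb64 : 1 / 64 ≤ b := by linarith
  have h := mass_margin_power hb64 hlt.le hzero hpos
  have hμ0 : 0 < min (mass b) 1 := lt_min hpos one_pos
  have hmb : mass b < 1 := by
    by_contra hge
    rw [min_eq_right (not_lt.1 hge), Real.one_rpow] at h
    linarith
  rw [min_eq_left hmb.le] at h
  have hexp : mass b ^ (2 - 1 / (256 * bc)) ≤ 4000 * (bc - b) := by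
    refine le_trans (Real.rpow_le_rpow_of_exponent_ge hpos hmb.le ?_) h
    have : 1 / (256 * bc) ≤ 1 / (256 * b) :=
      one_div_le_one_div_of_le (by positivity) (by linarith)
    linarith
  have he : 0 < 2 - 1 / (256 * bc) := by
    have : 1 / (256 * bc) ≤ 1 := by rw [div_le_one (by linarith)]; linarith
    linarith
  rw [one_div (2 - 1 / (256 * bc))]
  exact (Real.le_rpow_inv_iff_of_pos hpos.le (by linarith) he).2 hexp

end Vale.Agent.P159
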