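import Vale.Agent.P159.Derivative

/-!
# The infinite-volume two-point function

Existence of the limit, its symmetries, supermultiplicativity and positivity.
-/

namespace Vale.Agent.P159

open MeasureTheory Filter Topology
open scoped Real

/-- The couplings of the nearest-neighbour model on the box. -/
noncomputable def coupling (R : ℕ) (b : ℝ) (p q : box R) : ℝ := b * nnWeight p.1 q.1

lemma nnWeight_nonneg (p q : ℤ × ℤ) : 0 ≤ nnWeight p q := by
  unfold nnWeight; split_ifs <;> norm_num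

lemma coupling_nonneg {R : ℕ} {b : ℝ} (hb : 0 ≤ b) (p q : box R) : 0 ≤ coupling R b p q :=
  mul_nonneg hb (nnWeight_nonneg _ _)

lemma mem_box {R : ℕ} {p : ℤ × ℤ} : p ∈ box R ↔ |p.1| ≤ R ∧ |p.2| ≤ R := by
  simp only [box, Finset.mem_Icc, Prod.le_def, abs_le]
  constructor
  · rintro ⟨⟨h1, h2⟩, h3, h4⟩; exact ⟨⟨h1, h3⟩, h2, h4⟩
  · rintro ⟨⟨h1, h3⟩, h2, h4⟩; exact ⟨⟨h1, h2⟩, h3, h4⟩

lemma twoPoint_eq (R : ℕ) (b : ℝ) (x y : ℤ × ℤ) :
    twoPoint R b x y = if h : x ∈ box R ∧ y ∈ box R then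
      corrJ (coupling R b) ⟨x, h.1⟩ ⟨y, h.2⟩ else 0 := by
  unfold twoPoint
  split_ifs with h
  · have e : ∀ θ : box R → Circ, inter (coupling R b) θ = b * energy R θ := by
      intro θ
      simp [inter, energy, coupling, cosD, cosC, Finset.mul_sum, mul_assoc]
    simp only [corrJ, gibbs, rawInt, e, one_mul]
    rfl
  · rfl

lemma twoPoint_nonneg (R : ℕ) {b : ℝ} (hb : 0 ≤ b) (x y : ℤ × ℤ) : 0 ≤ twoPoint R b x y := by
  rw [twoPoint_eq]; split_ifs
  exacts [corrJ_nonneg (coupling_nonneg hb) _ _, le_rfl]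

lemma twoPoint_le_one (R : ℕ) (b : ℝ) (x y : ℤ × ℤ) : twoPoint R b x y ≤ 1 := by
  rw [twoPoint_eq]; split_ifs
  exacts [corrJ_le_one _ _ _, zero_le_one]

/-- A map of `ℤ²` preserving adjacency which moves every box into a slightly larger one. -/
def IsSym (φ : ℤ × ℤ → ℤ × ℤ) (K : ℕ) : Prop :=
  Function.Injective φ ∧ (∀ p q, nnWeight (φ p) (φ q) = nnWeight p q) ∧
    ∀ p, |(φ p).1| ≤ max |p.1| |p.2| + K ∧ |(φ p).2| ≤ max |p.1| |p.2| + K

lemma twoPoint_map {φ : ℤ × ℤ → ℤ × ℤ} {K : ℕ} (hφ : IsSym φ K) {R S : ℕ} (hS : R + K ≤ S)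
    {b b' : ℝ} (hb : 0 ≤ b) (hbb : b ≤ b') (x y : ℤ × ℤ) :
    twoPoint R b x y ≤ twoPoint S b' (φ x) (φ y) := by
  by_cases h : x ∈ box R ∧ y ∈ box R
  swap
  · rw [twoPoint_eq R, dif_neg h]; exact twoPoint_nonneg _ (hb.trans hbb) _ _
  have hmem : ∀ p ∈ box R, φ p ∈ box S := by
    intro p hp
    obtain ⟨h1, h2⟩ := mem_box.1 hp
    obtain ⟨k1, k2⟩ := hφ.2.2 p
    have : max |p.1| |p.2| + (K : ℤ) ≤ S := by
      have := max_le h1 h2
      omega
    exact mem_box.2 ⟨k1.trans this, k2.trans this⟩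
  rw [twoPoint_eq, twoPoint_eq, dif_pos h, dif_pos ⟨hmem _ h.1, hmem _ h.2⟩]
  refine corrJ_embed (φ := fun p : box R => (⟨φ p.1, hmem _ p.2⟩ : box S))
    (fun p q e => Subtype.ext (hφ.1 (Subtype.ext_iff.1 e))) (coupling_nonneg hb)
    (coupling_nonneg (hb.trans hbb)) (fun p q => ?_) _ _
  simp only [coupling, hφ.2.1]
  exact mul_le_mul_of_nonneg_right hbb (nnWeight_nonneg _ _)

lemma isSym_id : IsSym id 0 :=
  ⟨fun _ _ h => h, fun _ _ => rfl, fun p => by simp⟩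

lemma twoPoint_mono {R S : ℕ} (hS : R ≤ S) {b b' : ℝ} (hb : 0 ≤ b) (hbb : b ≤ b') (x y : ℤ × ℤ) :
    twoPoint R b x y ≤ twoPoint S b' x y :=
  twoPoint_map isSym_id (by simpa using hS) hb hbb x y

/-- The infinite-volume two-point function. -/
noncomputable def corrInf (b : ℝ) (x y : ℤ × ℤ) : ℝ := ⨆ R, twoPoint R b x y

lemma twoPoint_le_corrInf (R : ℕ) (b : ℝ) (x y : ℤ × ℤ) : twoPoint R b x y ≤ corrInf b x y :=
  le_ciSup (f := fun R => twoPoint R b x y)
    ⟨1, Set.forall_mem_range.2 fun R => twoPoint_le_one R b x y⟩ R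

lemma tendsto_twoPoint {b : ℝ} (hb : 0 ≤ b) (x y : ℤ × ℤ) :
    Tendsto (fun R => twoPoint R b x y) atTop (𝓝 (corrInf b x y)) :=
  tendsto_atTop_ciSup (fun _ _ h => twoPoint_mono h hb le_rfl x y)
    ⟨1, Set.forall_mem_range.2 fun R => twoPoint_le_one R b x y⟩

lemma corrInf_nonneg {b : ℝ} (hb : 0 ≤ b) (x y : ℤ × ℤ) : 0 ≤ corrInf b x y :=
  (twoPoint_nonneg 0 hb x y).trans (twoPoint_le_corrInf 0 b x y)

lemma corrInf_le_one (b : ℝ) (x y : ℤ × ℤ) : corrInf b x y ≤ 1 :=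
  ciSup_le fun R => twoPoint_le_one R b x y

lemma corrInf_mono {b b' : ℝ} (hb : 0 ≤ b) (hbb : b ≤ b') (x y : ℤ × ℤ) :
    corrInf b x y ≤ corrInf b' x y :=
  ciSup_le fun R => (twoPoint_mono le_rfl hb hbb x y).trans (twoPoint_le_corrInf R b' x y)

lemma corrInf_map {φ : ℤ × ℤ → ℤ × ℤ} {K : ℕ} (hφ : IsSym φ K) {b : ℝ} (hb : 0 ≤ b)
    (x y : ℤ × ℤ) : corrInf b x y ≤ corrInf b (φ x) (φ y) :=
  ciSup_le fun _ => (twoPoint_map hφ le_rfl hb le_rfl x y).trans (twoPoint_le_corrInf _ b _ _)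

lemma corrInf_comm (b : ℝ) (x y : ℤ × ℤ) : corrInf b x y = corrInf b y x := by
  refine iSup_congr fun R => ?_
  rw [twoPoint_eq, twoPoint_eq]
  by_cases h : x ∈ box R ∧ y ∈ box R
  · rw [dif_pos h, dif_pos h.symm]; exact corrJ_comm _ _ _
  · rw [dif_neg h, dif_neg fun h' => h h'.symm]

lemma eventually_mem_box (x : ℤ × ℤ) : ∀ᶠ R in atTop, x ∈ box R := by
  filter_upwards [eventually_ge_atTop (x.1.natAbs + x.2.natAbs)] with R hR
  exact mem_box.2 ⟨abs_le.2 ⟨by omega, by omega⟩, abs_le.2 ⟨by omega, by omega⟩⟩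

lemma corrInf_mul_le {b : ℝ} (hb : 0 ≤ b) (x y z : ℤ × ℤ) :
    corrInf b x y * corrInf b y z ≤ corrInf b x z := by
  refine le_of_tendsto_of_tendsto ((tendsto_twoPoint hb x y).mul (tendsto_twoPoint hb y z))
    (tendsto_twoPoint hb x z) ?_
  filter_upwards [eventually_mem_box x, eventually_mem_box y, eventually_mem_box z]
    with R hx hy hz
  simp only [twoPoint_eq, hx, hy, hz, and_self, dite_true]
  have h := corrJ_mul_le (coupling_nonneg (R := R) hb) ⟨x, hx⟩ ⟨y, hy⟩ ⟨z, hz⟩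
  rwa [corrJ_comm _ (⟨z, hz⟩ : box R)] at h

lemma isSym_translate (z : ℤ × ℤ) : IsSym (fun p => p + z) (z.1.natAbs + z.2.natAbs) := by
  refine ⟨fun p q h => add_right_cancel h, fun p q => by simp [nnWeight], fun p => ?_⟩
  have h1 := le_max_left |p.1| |p.2|
  have h2 := le_max_right |p.1| |p.2|
  have h3 := abs_add_le p.1 z.1
  have h4 := abs_add_le p.2 z.2
  simp only [Prod.fst_add, Prod.snd_add]
  constructor <;> push_cast <;> linarith [abs_nonneg z.1, abs_nonneg z.2]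

lemma isSym_flip (c : ℤ) : IsSym (fun p => (c - p.1, p.2)) c.natAbs := by
  refine ⟨fun p q h => ?_, fun p q => ?_, fun p => ?_⟩
  · simp only [Prod.mk.injEq, sub_right_inj] at h; exact Prod.ext h.1 h.2
  · simp only [nnWeight]
    rw [show c - p.1 - (c - q.1) = -(p.1 - q.1) by ring, abs_neg]
  · have h1 := le_max_left |p.1| |p.2|
    have h2 := le_max_right |p.1| |p.2|
    have h3 := abs_sub c p.1
    constructor <;> push_cast <;> linarith [abs_nonneg c]

lemma isSym_swap : IsSym (fun p => (p.2, p.1)) 0 := by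
  refine ⟨fun p q h => ?_, fun p q => ?_, fun p => by simp⟩
  · simp only [Prod.mk.injEq] at h; exact Prod.ext h.2 h.1
  · simp only [nnWeight]; rw [add_comm |p.2 - q.2|]

/-- The two-point function along the axis. -/
noncomputable def axisCorr (b : ℝ) (r : ℕ) : ℝ := corrInf b 0 ((r : ℤ), 0)

lemma axisCorr_zero (b : ℝ) : axisCorr b 0 = 1 := by
  refine le_antisymm (corrInf_le_one _ _ _) ?_
  have h := twoPoint_le_corrInf 0 b 0 0
  rw [twoPoint_eq, dif_pos ⟨mem_box.2 ⟨by simp, by simp⟩, mem_box.2 ⟨by simp, by simp⟩⟩,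
    corrJ_self] at h
  exact h

lemma axisCorr_mul_le {b : ℝ} (hb : 0 ≤ b) (r s : ℕ) :
    axisCorr b r * axisCorr b s ≤ axisCorr b (r + s) := by
  have h2 := corrInf_map (isSym_translate ((r : ℤ), 0)) hb 0 ((s : ℤ), 0)
  simp only [zero_add, Prod.mk_add_mk] at h2
  have h3 := corrInf_mul_le hb 0 ((r : ℤ), 0) ((s : ℤ) + r, 0)
  refine le_trans (mul_le_mul_of_nonneg_left h2 (corrInf_nonneg hb _ _)) (h3.trans_eq ?_)
  simp [axisCorr, add_comm]

lemma integral_cosD_two :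
    (∫ θ, cosD (0 : Fin 2) 1 θ ∂torus (Fin 2)) = 0 ∧
      (∫ θ, cosD (0 : Fin 2) 1 θ ^ 2 ∂torus (Fin 2)) = 1 / 2 := by
  have hs : Continuous fun θ : Fin 2 → Circ => sinC (θ 0 - θ 1) ^ 2 :=
    (continuous_sinC.comp ((continuous_apply 0).sub (continuous_apply 1))).pow 2
  have h1 := integral_add_right_eq_self (μ := torus (Fin 2)) (cosD (0 : Fin 2) 1)
    (fun i => if i = 0 then ((π : ℝ) : Circ) else 0)
  have h2 := integral_add_right_eq_self (μ := torus (Fin 2))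
    (fun θ => cosD (0 : Fin 2) 1 θ ^ 2) (fun i => if i = 0 then ((π / 2 : ℝ) : Circ) else 0)
  have e1 : ∀ θ : Fin 2 → Circ, cosD 0 1 (θ + fun i => if i = 0 then ((π : ℝ) : Circ) else 0)
      = -cosD 0 1 θ := by
    intro θ
    have : θ 0 + ((π : ℝ) : Circ) - θ 1 = θ 0 - θ 1 + ((π : ℝ) : Circ) := by abel
    simp [cosD, this, cosC_add, cosC_coe, sinC_coe]
  have e2 : ∀ θ : Fin 2 → Circ,
      cosD 0 1 (θ + fun i => if i = 0 then ((π / 2 : ℝ) : Circ) else 0) ^ 2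
      = sinC (θ 0 - θ 1) ^ 2 := by
    intro θ
    have : θ 0 + ((π / 2 : ℝ) : Circ) - θ 1 = θ 0 - θ 1 + ((π / 2 : ℝ) : Circ) := by abel
    simp [cosD, this, cosC_add, cosC_coe, sinC_coe]
  simp only [e1, integral_neg] at h1
  simp only [e2] at h2
  refine ⟨by linarith, ?_⟩
  have h3 : ∫ θ, (cosD (0 : Fin 2) 1 θ ^ 2 + sinC (θ 0 - θ 1) ^ 2) ∂torus (Fin 2) = 1 := by
    have : ∀ t : Circ, cosC t ^ 2 + sinC t ^ 2 = 1 := fun t => Real.Angle.cos_sq_add_sin_sq t
    simp [cosD, this]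
  rw [integral_add (integrable_cont ((continuous_cosD _ _).fun_pow 2)) (integrable_cont hs)] at h3
  linarith

lemma axisCorr_one_pos {b : ℝ} (hb : 0 < b) : 0 < axisCorr b 1 := by
  set J : Fin 2 → Fin 2 → ℝ := fun i j => if i = j then 0 else b / 2 with hJdef
  have hJ : ∀ i j, 0 ≤ J i j := fun i j => by simp only [hJdef]; split_ifs <;> linarith
  have m0 : ((0, 0) : ℤ × ℤ) ∈ box 1 := mem_box.2 ⟨by simp, by simp⟩
  have m1 : ((1, 0) : ℤ × ℤ) ∈ box 1 := mem_box.2 ⟨by simp, by simp⟩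
  have hle := corrJ_embed (φ := ![(⟨(0, 0), m0⟩ : box 1), ⟨(1, 0), m1⟩])
    (fun i j h => by fin_cases i <;> fin_cases j <;> simp at h ⊢) hJ
    (coupling_nonneg (R := 1) hb.le)
    (fun i j => by
      fin_cases i <;> fin_cases j <;> simp [hJdef, coupling, nnWeight, div_eq_mul_inv]) 0 1
  have he : corrJ (coupling 1 b) ⟨(0, 0), m0⟩ ⟨(1, 0), m1⟩ = twoPoint 1 b (0, 0) (1, 0) := by
    rw [twoPoint_eq, dif_pos ⟨m0, m1⟩]
  refine lt_of_lt_of_le ?_ ((hle.trans_eq he).trans (twoPoint_le_corrInf 1 b _ _))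
  refine div_pos ?_ (rawInt_one_pos J)
  have hE : ∀ θ, inter J θ = b * cosD 0 1 θ := by
    intro θ
    have : cosD (1 : Fin 2) 0 θ = cosD 0 1 θ := by rw [cosD, cosD, ← cosC_neg, neg_sub]
    simp [inter, hJdef, this]
    ring
  have hpt : ∀ θ, cosD 0 1 θ + b * Real.exp (-b) * cosD (0 : Fin 2) 1 θ ^ 2 ≤
      cosD 0 1 θ * Real.exp (inter J θ) := by
    intro θ
    rw [hE]
    set u := cosD (0 : Fin 2) 1 θ
    have hu : |u| ≤ 1 := abs_cosC_le_one _
    have h1 := Real.add_one_le_exp (b * u)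
    have h2 := Real.add_one_le_exp (-(b * u))
    have h4 : Real.exp (-b) ≤ 1 := Real.exp_le_one_iff.2 (by linarith)
    rcases le_total 0 u with hu0 | hu0
    · nlinarith [mul_le_mul_of_nonneg_left h1 hu0,
        mul_le_mul_of_nonneg_right h4 (mul_nonneg hb.le (sq_nonneg u))]
    · have h3 : Real.exp (-b) ≤ Real.exp (b * u) :=
        Real.exp_le_exp.2 (by nlinarith [(abs_le.1 hu).1])
      have h5 : Real.exp (b * u) * (-(b * u) + 1) ≤ 1 := by
        refine (mul_le_mul_of_nonneg_left h2 (Real.exp_pos _).le).trans_eq ?_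
        rw [← Real.exp_add, add_neg_cancel, Real.exp_zero]
      nlinarith [mul_le_mul_of_nonneg_left h5 (neg_nonneg.2 hu0),
        mul_le_mul_of_nonneg_right h3 (mul_nonneg hb.le (sq_nonneg u))]
  have hmono := integral_mono (μ := torus (Fin 2))
    (integrable_cont ((continuous_cosD 0 1).fun_add
      (continuous_const.fun_mul ((continuous_cosD 0 1).fun_pow 2))))
    (integrable_cont ((continuous_cosD 0 1).fun_mul (continuous_weight J))) hpt
  rw [integral_add (integrable_cont (continuous_cosD 0 1))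
    (integrable_cont (continuous_const.fun_mul ((continuous_cosD 0 1).fun_pow 2))),
    integral_const_mul, integral_cosD_two.1, integral_cosD_two.2] at hmono
  refine lt_of_lt_of_le ?_ hmono
  positivity

lemma axisCorr_pos {b : ℝ} (hb : 0 < b) (r : ℕ) : 0 < axisCorr b r := by
  induction r with
  | zero => simp [axisCorr_zero b]
  | succ n ih => exact (mul_pos ih (axisCorr_one_pos hb)).trans_le (axisCorr_mul_le hb.le n 1)

/-- Off-axis correlations are controlled by on-axis ones. -/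
lemma corrInf_sq_le {b : ℝ} (hb : 0 ≤ b) (y : ℤ × ℤ) :
    corrInf b 0 y ^ 2 ≤ axisCorr b (2 * (max y.1.natAbs y.2.natAbs)) := by
  wlog h : y.2.natAbs ≤ y.1.natAbs generalizing y
  · have h' := this (y.2, y.1) (le_of_lt (not_le.1 h))
    rw [max_comm y.1.natAbs]
    refine le_trans (pow_le_pow_left₀ (corrInf_nonneg hb _ _) ?_ 2) h'
    exact corrInf_map isSym_swap hb 0 y
  have h1 := corrInf_map (isSym_flip (2 * y.1)) hb 0 y
  simp only [Prod.fst_zero, Prod.snd_zero, sub_zero,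
    show 2 * y.1 - y.1 = y.1 by ring] at h1
  have h2 : corrInf b 0 y ^ 2 ≤ corrInf b 0 (2 * y.1, 0) := by
    refine le_trans ?_ (corrInf_mul_le hb 0 y (2 * y.1, 0))
    rw [sq, corrInf_comm b y]
    exact mul_le_mul_of_nonneg_left h1 (corrInf_nonneg hb _ _)
  refine h2.trans ?_
  rw [max_eq_left h, axisCorr]
  rcases Int.natAbs_eq y.1 with e | e
  · rw [show ((2 * y.1.natAbs : ℕ) : ℤ) = 2 * y.1 by omega]
  · refine (corrInf_map (isSym_flip 0) hb 0 (2 * y.1, 0)).trans_eq ?_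
    rw [show ((2 * y.1.natAbs : ℕ) : ℤ) = 0 - 2 * y.1 by omega]
    simp [Prod.zero_eq_mk]

lemma twoPoint_le_zero_corrInf (R : ℕ) {b : ℝ} (hb : 0 ≤ b) (x y : ℤ × ℤ) :
    twoPoint R b x y ≤ corrInf b 0 (y - x) := by
  refine (twoPoint_le_corrInf R b x y).trans ((corrInf_map (isSym_translate (-x)) hb x y).trans_eq ?_)
  simp [sub_eq_add_neg]

end Vale.Agent.P159
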