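import Vale.Agent.P159.Growth

/-!
# The mass as a function of the inverse temperature

The set of inverse temperatures with positive mass is open, with a quantitative margin `c·m²`.
-/

namespace Vale.Agent.P159

open MeasureTheory Filter Topology
open scoped Real

/-- `-log C_b(r)`. -/
noncomputable def negLogCorr (b : ℝ) (r : ℕ) : ℝ := -Real.log (axisCorr b r)

lemma negLogCorr_subadditive {b : ℝ} (hb : 0 < b) : Subadditive (negLogCorr b) := by
  intro r s
  have h := Real.log_le_log (mul_pos (axisCorr_pos hb r) (axisCorr_pos hb s))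
    (axisCorr_mul_le hb.le r s)
  rw [Real.log_mul (axisCorr_pos hb r).ne' (axisCorr_pos hb s).ne'] at h
  simp only [negLogCorr]
  linarith

lemma negLogCorr_div_nonneg {b : ℝ} (hb : 0 < b) (r : ℕ) : 0 ≤ negLogCorr b r / r :=
  div_nonneg (neg_nonneg.2 (Real.log_nonpos (axisCorr_pos hb r).le (corrInf_le_one _ _ _)))
    (Nat.cast_nonneg r)

/-- The mass (inverse correlation length). -/
noncomputable def mass (b : ℝ) : ℝ := sInf ((fun r : ℕ => negLogCorr b r / r) '' Set.Ici 1)

lemma tendsto_mass {b : ℝ} (hb : 0 < b) :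
    Tendsto (fun r : ℕ => negLogCorr b r / r) atTop (𝓝 (mass b)) := by
  have h := (negLogCorr_subadditive hb).tendsto_lim
    ⟨0, Set.forall_mem_range.2 (negLogCorr_div_nonneg hb)⟩
  rwa [Subadditive.lim] at h

lemma mass_nonneg {b : ℝ} (hb : 0 < b) : 0 ≤ mass b :=
  ge_of_tendsto' (tendsto_mass hb) (negLogCorr_div_nonneg hb)

lemma axisCorr_le_exp {b : ℝ} (hb : 0 < b) (r : ℕ) :
    axisCorr b r ≤ Real.exp (-(mass b * r)) := by
  rcases Nat.eq_zero_or_pos r with rfl | hr
  · simp [axisCorr_zero]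
  have h : mass b ≤ negLogCorr b r / r :=
    csInf_le ⟨0, by rintro _ ⟨n, _, rfl⟩; exact negLogCorr_div_nonneg hb n⟩ ⟨r, hr, rfl⟩
  rw [le_div_iff₀ (by exact_mod_cast hr), negLogCorr] at h
  calc axisCorr b r = Real.exp (Real.log (axisCorr b r)) := (Real.exp_log (axisCorr_pos hb r)).symm
    _ ≤ _ := Real.exp_le_exp.2 (by linarith)

lemma corrInf_le_exp {b μ : ℝ} (hb : 0 < b) (hμ : μ ≤ mass b) (y : ℤ × ℤ) :
    corrInf b 0 y ≤ Real.exp (-(μ * supDist 0 y)) := by
  set k := max y.1.natAbs y.2.natAbs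
  have hd : supDist 0 y = (k : ℝ) := by simp [supDist, k]
  have h := (corrInf_sq_le hb.le y).trans (axisCorr_le_exp hb (2 * k))
  have h0 := corrInf_nonneg hb.le 0 y
  have h2 : corrInf b 0 y ≤ Real.exp (-(mass b * k)) := by
    refine (pow_le_pow_iff_left₀ h0 (Real.exp_pos _).le two_ne_zero).1 (h.trans_eq ?_)
    rw [← Real.exp_nat_mul]
    push_cast
    ring_nf
  refine h2.trans (Real.exp_le_exp.2 ?_)
  rw [hd]
  nlinarith [mul_le_mul_of_nonneg_right hμ (Nat.cast_nonneg k : (0 : ℝ) ≤ k)]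

lemma sum_exp_natAbs_le (S : Finset ℤ) {s : ℝ} (hs : 0 < s) :
    ∑ k ∈ S, Real.exp (-(s * k.natAbs)) ≤ 2 * (1 + 1 / s) := by
  obtain ⟨N, hN⟩ : ∃ N : ℕ, ∀ k ∈ S, k.natAbs < N :=
    ⟨S.sup Int.natAbs + 1, fun k hk => Nat.lt_succ_of_le (Finset.le_sup hk)⟩
  set r := Real.exp (-s)
  have hr0 : 0 ≤ r := (Real.exp_pos _).le
  have hr1 : r < 1 := Real.exp_lt_one_iff.2 (by linarith)
  have hterm : ∀ n : ℕ, Real.exp (-(s * n)) = r ^ n := fun n => by
    rw [← Real.exp_nat_mul]; ring_nf
  calc ∑ k ∈ S, Real.exp (-(s * k.natAbs))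
      = ∑ n ∈ Finset.range N, ∑ k ∈ S with k.natAbs = n, Real.exp (-(s * k.natAbs)) :=
        (Finset.sum_fiberwise_of_maps_to (fun k hk => Finset.mem_range.2 (hN k hk)) _).symm
    _ ≤ ∑ n ∈ Finset.range N, 2 * r ^ n := by
        refine Finset.sum_le_sum fun n _ => ?_
        rw [Finset.sum_congr rfl (g := fun _ => r ^ n) fun k hk => by
          rw [(Finset.mem_filter.1 hk).2, hterm]]
        rw [Finset.sum_const, nsmul_eq_mul]
        refine mul_le_mul_of_nonneg_right ?_ (pow_nonneg hr0 n)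
        have hsub : (S.filter fun k => k.natAbs = n) ⊆ ({(n : ℤ), -(n : ℤ)} : Finset ℤ) := by
          intro k hk
          rw [Finset.mem_filter] at hk
          simp only [Finset.mem_insert, Finset.mem_singleton]
          exact Int.natAbs_eq_iff.1 hk.2
        exact_mod_cast (Finset.card_le_card hsub).trans Finset.card_le_two
    _ = 2 * ∑ n ∈ Finset.range N, r ^ n := (Finset.mul_sum _ _ _).symm
    _ ≤ 2 * (1 - r)⁻¹ := by
        refine mul_le_mul_of_nonneg_left ?_ zero_le_two
        rw [← tsum_geometric_of_lt_one hr0 hr1]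
        exact (summable_geometric_of_lt_one hr0 hr1).sum_le_tsum _ fun i _ => pow_nonneg hr0 i
    _ ≤ 2 * (1 + 1 / s) := by
        refine mul_le_mul_of_nonneg_left ?_ zero_le_two
        have h1 : r * (1 + s) ≤ 1 := by
          calc r * (1 + s) ≤ r * Real.exp s :=
                mul_le_mul_of_nonneg_left (by linarith [Real.add_one_le_exp s]) hr0
            _ = 1 := by rw [← Real.exp_add]; simp
        rw [inv_eq_one_div, div_le_iff₀ (by linarith)]
        field_simp
        nlinarith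

/-- Uniform bound on the weighted susceptibility below the critical point. -/
lemma wSus_le_of_mass {R : ℕ} {b μ a : ℝ} (hb : 0 < b) (hμ : μ ≤ mass b) (ha : a < μ)
    (x : box R) : wSus R a b x ≤ (2 * (1 + 1 / ((μ - a) / 2))) ^ 2 := by
  set s := (μ - a) / 2 with hs
  have hs0 : 0 < s := by rw [hs]; linarith
  set f : ℤ → ℝ := fun k => Real.exp (-(s * k.natAbs)) with hf
  have hterm : ∀ y : box R, Real.exp (a * supDist x.1 y.1) * corrJ (coupling R b) x y ≤
      f (y.1.1 - x.1.1) * f (y.1.2 - x.1.2) := by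
    intro y
    have h1 : corrJ (coupling R b) x y ≤ Real.exp (-(μ * supDist x.1 y.1)) := by
      have h := twoPoint_le_zero_corrInf R hb.le x.1 y.1
      rw [twoPoint_eq, dif_pos ⟨x.2, y.2⟩] at h
      refine h.trans ((corrInf_le_exp hb hμ _).trans_eq ?_)
      rw [supDist_comm x.1]
      simp only [supDist, Prod.fst_zero, Prod.snd_zero, zero_sub, Prod.fst_sub, Prod.snd_sub,
        Int.natAbs_neg]
    refine (mul_le_mul_of_nonneg_left h1 (Real.exp_pos _).le).trans ?_
    rw [hf, ← Real.exp_add, ← Real.exp_add]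
    refine Real.exp_le_exp.2 ?_
    rw [supDist_comm]
    have e1 : ((y.1.1 - x.1.1).natAbs : ℝ) ≤ supDist y.1 x.1 := by
      unfold supDist; exact_mod_cast le_max_left _ _
    have e2 : ((y.1.2 - x.1.2).natAbs : ℝ) ≤ supDist y.1 x.1 := by
      unfold supDist; exact_mod_cast le_max_right _ _
    nlinarith [mul_le_mul_of_nonneg_left (add_le_add e1 e2) hs0.le,
      (show 2 * s = μ - a by rw [hs]; ring)]
  refine (Finset.sum_le_sum fun y _ => hterm y).trans ?_
  generalize x.1 = c
  rw [Finset.sum_coe_sort (box R) (fun p => f (p.1 - c.1) * f (p.2 - c.2)),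
    show box R = Finset.Icc (-(R : ℤ)) R ×ˢ Finset.Icc (-(R : ℤ)) R from Finset.Icc_prod_def _ _,
    Finset.sum_product]
  dsimp only
  rw [← Finset.sum_mul_sum, sq]
  have key : ∀ c : ℤ, ∑ k ∈ Finset.Icc (-(R : ℤ)) R, f (k - c) ≤ 2 * (1 + 1 / s) := by
    intro c
    refine le_of_eq_of_le ?_ (sum_exp_natAbs_le ((Finset.Icc (-(R : ℤ)) R).image (· - c)) hs0)
    rw [Finset.sum_image fun a _ b _ h => by simpa using h]
  exact mul_le_mul (key _) (key _) (Finset.sum_nonneg fun _ _ => (Real.exp_pos _).le)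
    (by positivity)

lemma mass_ge_of_bound {b a K : ℝ} (hb : 0 < b) (hK : 0 < K)
    (h : ∀ r : ℕ, axisCorr b r ≤ K * Real.exp (-(a * r))) : a ≤ mass b := by
  have hlim : Tendsto (fun r : ℕ => a - Real.log K / r) atTop (𝓝 a) := by
    simpa using tendsto_const_nhds.sub (tendsto_const_div_atTop_nhds_zero_nat (Real.log K))
  refine le_of_tendsto_of_tendsto hlim (tendsto_mass hb) ?_
  filter_upwards [eventually_gt_atTop 0] with r hr
  have h1 := Real.log_le_log (axisCorr_pos hb r) (h r)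
  rw [Real.log_mul hK.ne' (Real.exp_pos _).ne', Real.log_exp] at h1
  have hr' : (0 : ℝ) < r := by exact_mod_cast hr
  rw [le_div_iff₀ hr', sub_mul, div_mul_cancel₀ _ hr'.ne', negLogCorr]
  linarith

lemma axisCorr_le_of_wSus {b a K : ℝ} (hb : 0 ≤ b)
    (h : ∀ (R : ℕ) (x : box R), wSus R a b x ≤ K) (r : ℕ) :
    axisCorr b r ≤ K * Real.exp (-(a * r)) := by
  refine le_of_tendsto (tendsto_twoPoint hb 0 ((r : ℤ), 0)) ?_
  filter_upwards [eventually_mem_box (0 : ℤ × ℤ), eventually_mem_box ((r : ℤ), 0)] with R h0 hr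
  rw [twoPoint_eq, dif_pos ⟨h0, hr⟩]
  set x : box R := ⟨0, h0⟩
  set y : box R := ⟨((r : ℤ), 0), hr⟩
  have h1 : Real.exp (a * supDist x.1 y.1) * corrJ (coupling R b) x y ≤ wSus R a b x :=
    Finset.single_le_sum
      (f := fun y : box R => Real.exp (a * supDist x.1 y.1) * corrJ (coupling R b) x y)
      (fun y _ => mul_nonneg (Real.exp_pos _).le (corrJ_nonneg (coupling_nonneg hb) x y))
      (Finset.mem_univ y)
  have hd : supDist x.1 y.1 = (r : ℝ) := by simp [supDist, x, y]
  rw [hd] at h1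
  rw [Real.exp_neg, ← div_eq_mul_inv, le_div_iff₀ (Real.exp_pos _), mul_comm]
  exact h1.trans (h R x)

lemma exp_half_le_two : Real.exp (1 / 2) ≤ 2 := by
  have h1 : Real.exp (1 / 2) * Real.exp (1 / 2) = Real.exp 1 := by rw [← Real.exp_add]; norm_num
  have h2 := Real.exp_one_lt_d9
  nlinarith [Real.exp_pos (1 / 2)]

/-- **Quantitative openness**: positive mass persists for a time of order `m(b)²`. -/
theorem mass_margin {b b' : ℝ} (hb : 0 < b) (hbb : b ≤ b') (h0 : mass b' = 0) :
    (min (mass b) 1) ^ 2 / 2000 ≤ b' - b := by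
  by_contra hlt
  rw [not_le] at hlt
  set μ := min (mass b) 1 with hμ
  have hμ1 : μ ≤ 1 := min_le_right _ _
  have hμ0 : 0 ≤ μ := le_min (mass_nonneg hb) zero_le_one
  have hμp : 0 < μ := by
    rcases hμ0.eq_or_lt with h | h
    · rw [← h] at hlt; linarith
    · exact h
  set a := μ / 2 with ha
  have ha0 : 0 ≤ a := by rw [ha]; linarith
  set M₀ := (2 * (1 + 1 / ((μ - a) / 2))) ^ 2 with hM
  have hea : Real.exp a ≤ 2 :=
    (Real.exp_le_exp.2 (by rw [ha]; linarith)).trans exp_half_le_two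
  have hM100 : M₀ * μ ^ 2 ≤ 100 := by
    have : M₀ * μ ^ 2 = (2 * (μ + 4)) ^ 2 := by
      rw [hM, ha]; field_simp; ring
    rw [this]
    nlinarith
  have hM0 : 0 ≤ M₀ := sq_nonneg _
  have hsmall : 8 * Real.exp a * (b' - b) * M₀ < 1 := by
    calc 8 * Real.exp a * (b' - b) * M₀
        ≤ 8 * 2 * (b' - b) * M₀ := by
          gcongr
      _ ≤ 8 * 2 * (μ ^ 2 / 2000) * M₀ := by gcongr
      _ = 8 * 2 / 2000 * (M₀ * μ ^ 2) := by ring
      _ ≤ 8 * 2 / 2000 * 100 := mul_le_mul_of_nonneg_left hM100 (by norm_num)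
      _ < 1 := by norm_num
  have hall : ∀ (R : ℕ) (x : box R), wSus R a b' x ≤ 2 * M₀ := by
    intro R x
    have := wSus_le_double (a := a) (b := b) (h := b' - b) ha0 hb.le
      (sub_nonneg.2 hbb) (fun z => wSus_le_of_mass hb (min_le_left _ _) (by rw [ha]; linarith) z)
      hsmall x
    rwa [add_sub_cancel] at this
  have hK : 0 < 2 * M₀ := by
    have : 0 < (μ - a) / 2 := by rw [ha]; linarith
    positivity
  have := mass_ge_of_bound (hb.trans_le hbb) hK
    (axisCorr_le_of_wSus (hb.le.trans hbb) hall)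
  rw [h0] at this
  linarith

lemma wSus_zero (R : ℕ) (a : ℝ) (x : box R) : wSus R a 0 x ≤ 1 := by
  classical
  rw [wSus, Finset.sum_eq_single x ?_ (by simp)]
  · simp [supDist, corrJ_self]
  intro y _ hy
  have hz : inter (coupling R 0) = fun _ => (0 : ℝ) := by funext θ; simp [inter, coupling]
  have h1 := integral_add_right_eq_self (μ := torus (box R)) (cosD x y)
    (fun i => if i = x then ((π : ℝ) : Circ) else 0)
  have e1 : ∀ θ : box R → Circ,
      cosD x y (θ + fun i => if i = x then ((π : ℝ) : Circ) else 0) = -cosD x y θ := by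
    intro θ
    have : θ x + ((π : ℝ) : Circ) - θ y = θ x - θ y + ((π : ℝ) : Circ) := by abel
    simp [cosD, hy, this, cosC_add, cosC_coe, sinC_coe]
  simp only [e1, integral_neg] at h1
  have h2 : ∫ θ, cosD x y θ ∂torus (box R) = 0 := by linarith
  simp [corrJ, gibbs, rawInt, hz, h2]

/-- The mass is positive at small inverse temperature. -/
theorem mass_pos_of_small {b : ℝ} (hb : 0 < b) (hs : b < 1 / 16) : 0 < mass b := by
  have hall : ∀ (R : ℕ) (x : box R), wSus R (1 / 2) b x ≤ 2 * 1 := by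
    intro R x
    have := wSus_le_double (a := 1 / 2) (b := 0) (h := b) (by norm_num) le_rfl hb.le
      (fun z => wSus_zero R _ z) (by nlinarith [exp_half_le_two, Real.exp_pos (1 / 2)]) x
    rwa [zero_add] at this
  have := mass_ge_of_bound hb (by norm_num) (axisCorr_le_of_wSus hb.le hall)
  linarith

lemma mass_antitone {b b' : ℝ} (hb : 0 < b) (hbb : b ≤ b') : mass b' ≤ mass b := by
  refine le_of_tendsto_of_tendsto' (tendsto_mass (hb.trans_le hbb)) (tendsto_mass hb) fun r => ?_
  refine div_le_div_of_nonneg_right (neg_le_neg ?_) (Nat.cast_nonneg r)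
  exact Real.log_le_log (axisCorr_pos hb r) (corrInf_mono hb.le hbb _ _)

/-- At the critical point the mass vanishes, and below it the mass is at most a multiple of the
square root of the distance to it. -/
theorem critical_bound {bc : ℝ} (hg : IsGLB {b : ℝ | 0 < b ∧ mass b = 0} bc) :
    1 / 16 ≤ bc ∧ mass bc = 0 ∧ ∀ b, 0 < b → b < bc →
      0 < mass b ∧ (min (mass b) 1) ^ 2 ≤ 2000 * (bc - b) := by
  have h16 : 1 / 16 ≤ bc := by
    refine hg.2 fun b hb => ?_
    by_contra hlt
    exact (mass_pos_of_small hb.1 (not_le.1 hlt)).ne' hb.2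
  have hbc : 0 < bc := by linarith
  have hzero : mass bc = 0 := by
    by_contra hne
    have hpos : 0 < min (mass bc) 1 :=
      lt_min (lt_of_le_of_ne (mass_nonneg hbc) (Ne.symm hne)) one_pos
    have hub : bc + (min (mass bc) 1) ^ 2 / 2000 ∈
        lowerBounds {b : ℝ | 0 < b ∧ mass b = 0} := by
      intro b hb
      linarith [mass_margin hbc (hg.1 hb) hb.2]
    have := hg.2 hub
    linarith [pow_pos hpos 2]
  refine ⟨h16, hzero, fun b hb hlt => ⟨?_, ?_⟩⟩
  · exact lt_of_le_of_ne (mass_nonneg hb) fun h => (hg.1 ⟨hb, h.symm⟩).not_gt hlt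
  · linarith [mass_margin hb hlt.le hzero]

end Vale.Agent.P159
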