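import Vale.Agent.P159.Mass

/-!
# The McBryan–Spencer bound

A complex translation of the angles bounds the two-point function by
`exp (-(φ x - φ y) + ∑ J (cosh Δφ - 1))`, and with a logarithmic profile this gives power decay at
every temperature.
-/

namespace Vale.Agent.P159

open MeasureTheory Filter Topology
open scoped Real

variable {V : Type*} [Fintype V]

/-- The two-point integrand with the angles translated by `z φ`. -/
noncomputable def shiftFun (J : V → V → ℝ) (φ : V → ℝ) (x y : V) (z : ℂ) (θ : V → Circ) : ℂ :=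
  ((cosC (θ x - θ y) : ℂ) + Complex.I * (sinC (θ x - θ y) : ℂ)) *
    Complex.exp (Complex.I * z * ((φ x - φ y : ℝ) : ℂ) +
      ∑ u, ∑ v, (J u v : ℂ) * ((cosC (θ u - θ v) : ℂ) * Complex.cos (z * ((φ u - φ v : ℝ) : ℂ))
        - (sinC (θ u - θ v) : ℂ) * Complex.sin (z * ((φ u - φ v : ℝ) : ℂ))))

/-- Its derivative in `z`. -/
noncomputable def shiftDeriv (J : V → V → ℝ) (φ : V → ℝ) (x y : V) (z : ℂ) (θ : V → Circ) : ℂ :=
  shiftFun J φ x y z θ * (Complex.I * ((φ x - φ y : ℝ) : ℂ) +
    ∑ u, ∑ v, (J u v : ℂ) * (-((cosC (θ u - θ v) : ℂ) *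
        (Complex.sin (z * ((φ u - φ v : ℝ) : ℂ)) * ((φ u - φ v : ℝ) : ℂ)))
      - (sinC (θ u - θ v) : ℂ) *
        (Complex.cos (z * ((φ u - φ v : ℝ) : ℂ)) * ((φ u - φ v : ℝ) : ℂ))))

lemma continuous_shiftFun (J : V → V → ℝ) (φ : V → ℝ) (x y : V) :
    Continuous fun p : ℂ × (V → Circ) => shiftFun J φ x y p.1 p.2 := by
  unfold shiftFun; fun_prop

lemma continuous_shiftDeriv (J : V → V → ℝ) (φ : V → ℝ) (x y : V) :
    Continuous fun p : ℂ × (V → Circ) => shiftDeriv J φ x y p.1 p.2 := by
  unfold shiftDeriv shiftFun; fun_prop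

lemma hasDerivAt_shiftFun (J : V → V → ℝ) (φ : V → ℝ) (x y : V) (θ : V → Circ) (z : ℂ) :
    HasDerivAt (fun w => shiftFun J φ x y w θ) (shiftDeriv J φ x y z θ) z := by
  have hl : ∀ c : ℂ, HasDerivAt (fun w : ℂ => w * c) c z := fun c => by
    simpa using (hasDerivAt_id z).mul_const c
  have h1 : HasDerivAt (fun w : ℂ => Complex.I * w * ((φ x - φ y : ℝ) : ℂ))
      (Complex.I * ((φ x - φ y : ℝ) : ℂ)) z := by
    simpa [mul_assoc] using (hl ((φ x - φ y : ℝ) : ℂ)).const_mul Complex.I
  have h2 : HasDerivAt (fun w : ℂ => ∑ u, ∑ v, (J u v : ℂ) *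
      ((cosC (θ u - θ v) : ℂ) * Complex.cos (w * ((φ u - φ v : ℝ) : ℂ))
        - (sinC (θ u - θ v) : ℂ) * Complex.sin (w * ((φ u - φ v : ℝ) : ℂ))))
      (∑ u, ∑ v, (J u v : ℂ) * (-((cosC (θ u - θ v) : ℂ) *
        (Complex.sin (z * ((φ u - φ v : ℝ) : ℂ)) * ((φ u - φ v : ℝ) : ℂ)))
        - (sinC (θ u - θ v) : ℂ) *
        (Complex.cos (z * ((φ u - φ v : ℝ) : ℂ)) * ((φ u - φ v : ℝ) : ℂ)))) z := by
    refine HasDerivAt.fun_sum fun u _ => HasDerivAt.fun_sum fun v _ => ?_
    exact ((((hl _).ccos.const_mul _).fun_sub ((hl _).csin.const_mul _)).const_mul _).congr_deriv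
      (by ring)
  exact ((h1.fun_add h2).cexp.const_mul _).congr_deriv (by simp only [shiftDeriv, shiftFun]; ring)

lemma differentiable_integral_shift (J : V → V → ℝ) (φ : V → ℝ) (x y : V) :
    Differentiable ℂ fun z => ∫ θ, shiftFun J φ x y z θ ∂torus V := by
  intro z₀
  obtain ⟨C, hC⟩ := (((isCompact_closedBall z₀ 1).prod isCompact_univ).image
    (continuous_shiftDeriv J φ x y)).isBounded.exists_norm_le
  have hc : ∀ z, Continuous fun θ => shiftFun J φ x y z θ := fun z =>
    (continuous_shiftFun J φ x y).comp (continuous_const.prodMk continuous_id)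
  have hi : Integrable (fun θ => shiftFun J φ x y z₀ θ) (torus V) := by
    obtain ⟨D, hD⟩ := isCompact_univ.exists_bound_of_continuousOn (hc z₀).continuousOn
    exact Integrable.of_bound (hc z₀).aestronglyMeasurable D
      (Eventually.of_forall fun θ => hD θ (Set.mem_univ θ))
  refine (hasDerivAt_integral_of_dominated_loc_of_deriv_le (μ := torus V)
    (F := shiftFun J φ x y) (F' := shiftDeriv J φ x y) (bound := fun _ => C) (x₀ := z₀)
    (Metric.ball_mem_nhds z₀ one_pos)
    (Eventually.of_forall fun z => (hc z).aestronglyMeasurable) hi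
    ((continuous_shiftDeriv J φ x y).comp
      (continuous_const.prodMk continuous_id)).aestronglyMeasurable
    (Eventually.of_forall fun θ z hz =>
      hC _ ⟨(z, θ), ⟨Metric.ball_subset_closedBall hz, Set.mem_univ θ⟩, rfl⟩)
    (integrable_const C)
    (Eventually.of_forall fun θ z _ => hasDerivAt_shiftFun J φ x y θ z)).2.differentiableAt

lemma integral_shift_real (J : V → V → ℝ) (φ : V → ℝ) (x y : V) (t : ℝ) :
    ∫ θ, shiftFun J φ x y (t : ℂ) θ ∂torus V = ∫ θ, shiftFun J φ x y 0 θ ∂torus V := by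
  rw [← integral_add_right_eq_self (μ := torus V) (fun θ => shiftFun J φ x y 0 θ)
    (fun v => ((t * φ v : ℝ) : Circ))]
  congr 1
  funext θ
  have e : ∀ u v : V, ((θ + fun w => ((t * φ w : ℝ) : Circ)) u - (θ + fun w => ((t * φ w : ℝ) : Circ)) v)
      = (θ u - θ v) + ((t * (φ u - φ v) : ℝ) : Circ) := by
    intro u v
    rw [mul_sub, AddCircle.coe_sub]
    simp only [Pi.add_apply]; abel
  simp only [shiftFun, e, cosC_add, sinC_add, cosC_coe, sinC_coe, zero_mul, mul_zero,
    Complex.cos_zero, Complex.sin_zero, Complex.exp_add]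
  push_cast
  rw [show Complex.I * (t : ℂ) * ((φ x : ℂ) - φ y) = ((t : ℂ) * ((φ x : ℂ) - φ y)) * Complex.I by
    ring, Complex.exp_mul_I]
  simp only [mul_one, sub_zero, Complex.exp_zero, one_mul]
  linear_combination (Complex.exp (∑ u, ∑ v, (J u v : ℂ) *
      ((cosC (θ u - θ v) : ℂ) * Complex.cos ((t : ℂ) * ((φ u : ℂ) - φ v))
        - (sinC (θ u - θ v) : ℂ) * Complex.sin ((t : ℂ) * ((φ u : ℂ) - φ v))))
      * (sinC (θ x - θ y) : ℂ) * Complex.sin ((t : ℂ) * ((φ x : ℂ) - φ y))) * Complex.I_mul_I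

lemma integral_shift_const (J : V → V → ℝ) (φ : V → ℝ) (x y : V) (z : ℂ) :
    ∫ θ, shiftFun J φ x y z θ ∂torus V = ∫ θ, shiftFun J φ x y 0 θ ∂torus V := by
  have h1 : AnalyticOnNhd ℂ (fun w => ∫ θ, shiftFun J φ x y w θ ∂torus V) Set.univ :=
    (differentiable_integral_shift J φ x y).differentiableOn.analyticOnNhd isOpen_univ
  refine h1.eqOn_of_preconnected_of_frequently_eq
    (g := fun _ => ∫ θ, shiftFun J φ x y 0 θ ∂torus V) analyticOnNhd_const isPreconnected_univ
    (Set.mem_univ 0) ?_ (Set.mem_univ z)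
  have ht : Tendsto (fun n : ℕ => ((1 / ((n : ℝ) + 1) : ℝ) : ℂ)) atTop (𝓝[≠] 0) := by
    refine tendsto_nhdsWithin_iff.2 ⟨?_, Eventually.of_forall fun n => ?_⟩
    · have := (Complex.continuous_ofReal.tendsto 0).comp
        (tendsto_one_div_add_atTop_nhds_zero_nat (𝕜 := ℝ))
      simpa [Function.comp_def] using this
    · exact Complex.ofReal_ne_zero.2 (by positivity)
  exact ht.frequently (Frequently.of_forall fun n => integral_shift_real J φ x y _)

/-- The McBryan–Spencer inequality. -/
theorem corrJ_le_exp_shift {J : V → V → ℝ} (hJ : ∀ u v, 0 ≤ J u v) (φ : V → ℝ) (x y : V) :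
    corrJ J x y ≤
      Real.exp (-(φ x - φ y) + ∑ u, ∑ v, J u v * (Real.cosh (φ u - φ v) - 1)) := by
  have hf0 : ∀ θ, (shiftFun J φ x y 0 θ).re = cosD x y θ * Real.exp (inter J θ) := by
    intro θ
    have : (∑ u, ∑ v, (J u v : ℂ) * (cosC (θ u - θ v) : ℂ)) = ((inter J θ : ℝ) : ℂ) := by
      simp [inter, cosD]
    simp [shiftFun, this, ← Complex.ofReal_exp, cosD]
  have hint : ∀ z, Integrable (fun θ => shiftFun J φ x y z θ) (torus V) := by
    intro z
    have hc : Continuous fun θ => shiftFun J φ x y z θ :=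
      (continuous_shiftFun J φ x y).comp (continuous_const.prodMk continuous_id)
    obtain ⟨D, hD⟩ := isCompact_univ.exists_bound_of_continuousOn hc.continuousOn
    exact Integrable.of_bound hc.aestronglyMeasurable D
      (Eventually.of_forall fun θ => hD θ (Set.mem_univ θ))
  set K := ∑ u, ∑ v, J u v * (Real.cosh (φ u - φ v) - 1)
  have hnorm : ∀ θ, ‖shiftFun J φ x y Complex.I θ‖ ≤
      Real.exp (-(φ x - φ y) + K) * Real.exp (inter J θ) := by
    intro θ
    rw [shiftFun, norm_mul, Complex.norm_exp, ← Real.exp_add]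
    have h1 : ‖(cosC (θ x - θ y) : ℂ) + Complex.I * (sinC (θ x - θ y) : ℂ)‖ = 1 := by
      rw [mul_comm Complex.I, Complex.norm_add_mul_I]
      have : cosC (θ x - θ y) ^ 2 + sinC (θ x - θ y) ^ 2 = 1 :=
        Real.Angle.cos_sq_add_sin_sq _
      rw [this, Real.sqrt_one]
    rw [h1, one_mul]
    refine Real.exp_le_exp.2 ?_
    have hc : ∀ d : ℝ, (Complex.cos (Complex.I * (d : ℂ))).re = Real.cosh d ∧
        (Complex.cos (Complex.I * (d : ℂ))).im = 0 ∧
        (Complex.sin (Complex.I * (d : ℂ))).re = 0 := by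
      intro d
      rw [mul_comm, Complex.cos_mul_I, Complex.sin_mul_I, ← Complex.ofReal_cosh,
        ← Complex.ofReal_sinh]
      simp
    simp only [Complex.add_re, Complex.re_sum, Complex.mul_re, Complex.sub_re, Complex.I_re,
      Complex.I_im, Complex.ofReal_re, Complex.ofReal_im, Complex.mul_im, Complex.sub_im,
      (hc _).1, (hc _).2.2, K, inter]
    simp only [zero_mul, one_mul, mul_zero, sub_zero, zero_sub, add_zero]
    rw [add_assoc, ← Finset.sum_add_distrib]
    refine add_le_add (le_of_eq (by ring)) (Finset.sum_le_sum fun u _ => ?_)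
    rw [← Finset.sum_add_distrib]
    refine Finset.sum_le_sum fun v _ => ?_
    have hcu : cosD u v θ ≤ 1 := (abs_le.1 (abs_cosC_le_one _)).2
    have hch := Real.one_le_cosh (φ u - φ v)
    simp only [cosD] at hcu ⊢
    nlinarith [mul_nonneg (hJ u v) (mul_nonneg (sub_nonneg.2 hcu) (sub_nonneg.2 hch))]
  rw [corrJ, gibbs, div_le_iff₀ (rawInt_one_pos J)]
  calc rawInt J (cosD x y) = (∫ θ, shiftFun J φ x y 0 θ ∂torus V).re := by
        rw [← integral_shift_const J φ x y 0]
        have := integral_re (hint 0)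
        simp only [RCLike.re_to_complex, hf0] at this
        exact this
    _ = (∫ θ, shiftFun J φ x y Complex.I θ ∂torus V).re := by
        rw [integral_shift_const J φ x y Complex.I]
    _ ≤ ‖∫ θ, shiftFun J φ x y Complex.I θ ∂torus V‖ := Complex.re_le_norm _
    _ ≤ ∫ θ, Real.exp (-(φ x - φ y) + K) * Real.exp (inter J θ) ∂torus V :=
        norm_integral_le_of_norm_le
          (integrable_cont (continuous_const.mul (continuous_weight J)))
          (Eventually.of_forall hnorm)
    _ = _ := by simp only [rawInt, one_mul]; exact integral_const_mul _ _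

/-- Logarithmic profile: `∑_{k < j ≤ n} 1/j`. -/
noncomputable def profile (n k : ℕ) : ℝ := ∑ j ∈ Finset.Ico k n, 1 / ((j : ℝ) + 1)

/-- The squared slope of the profile at `k`. -/
noncomputable def slopeSq (n k : ℕ) : ℝ := if k < n then 1 / ((k : ℝ) + 1) ^ 2 else 0

lemma slopeSq_nonneg (n k : ℕ) : 0 ≤ slopeSq n k := by
  unfold slopeSq; split_ifs <;> positivity

lemma profile_diff_sq (n : ℕ) {k l : ℕ} (h : k ≤ l + 1) (h' : l ≤ k + 1) :
    (profile n k - profile n l) ^ 2 ≤ slopeSq n k + slopeSq n l ∧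
      |profile n k - profile n l| ≤ 1 := by
  wlog hkl : k ≤ l generalizing k l
  · obtain ⟨a, b⟩ := this h' h (le_of_lt (not_le.1 hkl))
    rw [abs_sub_comm] at b
    exact ⟨by nlinarith, b⟩
  rcases hkl.eq_or_lt with rfl | hlt
  · simp [add_nonneg, slopeSq_nonneg]
  obtain rfl : l = k + 1 := by omega
  by_cases hk : k < n
  · have e : profile n k - profile n (k + 1) = 1 / ((k : ℝ) + 1) := by
      rw [profile, profile, Finset.sum_eq_sum_Ico_succ_bot hk]; ring
    rw [e]
    have e2 : slopeSq n k = 1 / ((k : ℝ) + 1) ^ 2 := if_pos hk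
    refine ⟨by rw [e2, div_pow, one_pow]; linarith [slopeSq_nonneg n (k + 1)], ?_⟩
    rw [abs_of_nonneg (by positivity), div_le_one (by positivity)]
    linarith [(Nat.cast_nonneg k : (0 : ℝ) ≤ k)]
  · rw [profile, profile, Finset.Ico_eq_empty hk, Finset.Ico_eq_empty (by omega)]
    simp [add_nonneg, slopeSq_nonneg]

/-- Sums over the box of functions of the sup distance, by shells. -/
lemma sum_shell_le (R : ℕ) (x : ℤ × ℤ) (N : ℕ) (g : ℕ → ℝ) (hg : ∀ k, 0 ≤ g k)
    (hN : ∀ y ∈ box R, g (max (x.1 - y.1).natAbs (x.2 - y.2).natAbs) ≠ 0 →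
      max (x.1 - y.1).natAbs (x.2 - y.2).natAbs < N) :
    ∑ y ∈ box R, g (max (x.1 - y.1).natAbs (x.2 - y.2).natAbs) ≤
      ∑ k ∈ Finset.range N, 8 * ((k : ℝ) + 1) * g k := by
  set d : ℤ × ℤ → ℕ := fun y => max (x.1 - y.1).natAbs (x.2 - y.2).natAbs
  calc ∑ y ∈ box R, g (d y) = ∑ y ∈ box R with d y < N, g (d y) := by
        refine (Finset.sum_filter_of_ne ?_).symm
        exact hN
    _ = ∑ k ∈ Finset.range N, ∑ y ∈ (box R).filter (fun y => d y < N) with d y = k, g (d y) :=
        (Finset.sum_fiberwise_of_maps_to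
          (fun y hy => Finset.mem_range.2 (Finset.mem_filter.1 hy).2) _).symm
    _ ≤ _ := by
        refine Finset.sum_le_sum fun k _ => ?_
        rw [Finset.sum_congr rfl (g := fun _ => g k) fun y hy => by
          rw [(Finset.mem_filter.1 hy).2], Finset.sum_const, nsmul_eq_mul]
        refine mul_le_mul_of_nonneg_right ?_ (hg k)
        set L := Finset.Icc (-(k : ℤ)) k
        have hsub : ((box R).filter (fun y => d y < N)).filter (fun y => d y = k) ⊆
            (L.image fun t => (x.1 + k, x.2 + t)) ∪ (L.image fun t => (x.1 - k, x.2 + t)) ∪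
            (L.image fun t => (x.1 + t, x.2 + k)) ∪ (L.image fun t => (x.1 + t, x.2 - k)) := by
          intro y hy
          rw [Finset.mem_filter] at hy
          obtain ⟨-, hy⟩ := hy
          simp only [d] at hy
          simp only [Finset.mem_union, Finset.mem_image, L, Finset.mem_Icc, Prod.ext_iff]
          rcases le_total (x.1 - y.1).natAbs (x.2 - y.2).natAbs with hh | hh
          · rcases Int.natAbs_eq (x.2 - y.2) with e | e
            · exact Or.inr ⟨y.1 - x.1, by omega, by omega, by omega⟩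
            · exact Or.inl (Or.inr ⟨y.1 - x.1, by omega, by omega, by omega⟩)
          · rcases Int.natAbs_eq (x.1 - y.1) with e | e
            · exact Or.inl (Or.inl (Or.inr ⟨y.2 - x.2, by omega, by omega, by omega⟩))
            · exact Or.inl (Or.inl (Or.inl ⟨y.2 - x.2, by omega, by omega, by omega⟩))
        have hL : L.card = 2 * k + 1 := by simp [L]; omega
        have hc := (Finset.card_le_card hsub).trans ((Finset.card_union_le _ _).trans
          (add_le_add ((Finset.card_union_le _ _).trans (add_le_add ((Finset.card_union_le _ _).trans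
            (add_le_add Finset.card_image_le Finset.card_image_le)) Finset.card_image_le))
            Finset.card_image_le))
        rw [hL] at hc
        exact_mod_cast hc.trans (by omega : _ ≤ 8 * (k + 1))

/-- Power decay at every inverse temperature `b ≥ 1/64`. -/
theorem corrJ_coupling_power {R : ℕ} {b : ℝ} (hb : 1 / 64 ≤ b) (x y : box R) :
    corrJ (coupling R b) x y ≤ (supDist x.1 y.1 + 1) ^ (-(1 / (128 * b))) := by
  have hb0 : 0 < b := by linarith
  set n := max (x.1.1 - y.1.1).natAbs (x.1.2 - y.1.2).natAbs with hn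
  set l := 1 / (64 * b) with hl
  have hl0 : 0 ≤ l := by positivity
  have hl1 : l ≤ 1 := by rw [hl, div_le_one (by positivity)]; linarith
  set d : box R → ℕ := fun p => max (x.1.1 - p.1.1).natAbs (x.1.2 - p.1.2).natAbs
  set H := ∑ j ∈ Finset.range n, 1 / ((j : ℝ) + 1) with hH
  refine (corrJ_le_exp_shift (coupling_nonneg hb0.le) (fun p => l * profile n (d p)) x y).trans ?_
  have hx : profile n (d x) = H := by
    have h0 : d x = 0 := by simp [d]
    rw [h0, profile, hH, Finset.range_eq_Ico]
  have hy : profile n (d y) = 0 := by simp [profile, d, hn]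
  have hterm : ∀ p q : box R, coupling R b p q *
      (Real.cosh (l * profile n (d p) - l * profile n (d q)) - 1) ≤
      b * l ^ 2 * (nnWeight p.1 q.1 * (slopeSq n (d p) + slopeSq n (d q))) := by
    intro p q
    by_cases h0 : nnWeight p.1 q.1 = 0
    · simp [coupling, h0]
    have h1 : |p.1.1 - q.1.1| + |p.1.2 - q.1.2| = 1 := by
      by_contra hne; exact h0 (if_neg hne)
    have e1 := Int.natCast_natAbs (p.1.1 - q.1.1)
    have e2 := Int.natCast_natAbs (p.1.2 - q.1.2)
    obtain ⟨hsq, habs⟩ := profile_diff_sq n (k := d p) (l := d q)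
      (by simp only [d]; omega) (by simp only [d]; omega)
    set D := profile n (d p) - profile n (d q)
    rw [← mul_sub]
    have hu : (l * D) ^ 2 / 2 ≤ 1 := by
      have : |l * D| ≤ 1 := by
        rw [abs_mul, abs_of_nonneg hl0]; exact mul_le_one₀ hl1 (abs_nonneg _) habs
      nlinarith [sq_abs (l * D), abs_nonneg (l * D)]
    have hch : Real.cosh (l * D) - 1 ≤ (l * D) ^ 2 := by
      refine le_trans (sub_le_sub_right (Real.cosh_le_exp_half_sq _) 1) ?_
      have := Real.abs_exp_sub_one_le (x := (l * D) ^ 2 / 2) (by rw [abs_of_nonneg (by positivity)]; exact hu)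
      rw [abs_of_nonneg (show 0 ≤ (l * D) ^ 2 / 2 by positivity)] at this
      linarith [(abs_le.1 this).2]
    have hnn := nnWeight_nonneg p.1 q.1
    calc coupling R b p q * (Real.cosh (l * D) - 1) ≤ coupling R b p q * (l * D) ^ 2 :=
          mul_le_mul_of_nonneg_left hch (mul_nonneg hb0.le hnn)
      _ ≤ _ := by
          simp only [coupling]
          nlinarith [mul_le_mul_of_nonneg_left hsq
            (mul_nonneg (mul_nonneg hb0.le hnn) (sq_nonneg l))]
  have hshell : ∑ p : box R, slopeSq n (d p) ≤ 8 * H := by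
    rw [Finset.sum_coe_sort (box R)
      (fun p => slopeSq n (max (x.1.1 - p.1).natAbs (x.1.2 - p.2).natAbs))]
    refine (sum_shell_le R x.1 n (slopeSq n) (slopeSq_nonneg n) fun p _ hp => ?_).trans ?_
    · by_contra hge; exact hp (if_neg hge)
    · rw [hH, Finset.mul_sum]
      refine Finset.sum_le_sum fun k hk => le_of_eq ?_
      rw [slopeSq, if_pos (Finset.mem_range.1 hk)]
      field_simp
  have hsum : ∑ p : box R, ∑ q : box R, coupling R b p q *
      (Real.cosh (l * profile n (d p) - l * profile n (d q)) - 1) ≤ 32 * b * l ^ 2 * H := by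
    refine (Finset.sum_le_sum fun p _ => Finset.sum_le_sum fun q _ => hterm p q).trans ?_
    simp only [← Finset.mul_sum, mul_add, Finset.sum_add_distrib]
    have hA : ∑ p : box R, ∑ q : box R, nnWeight p.1 q.1 * slopeSq n (d p) ≤ 16 * H := by
      calc ∑ p : box R, ∑ q : box R, nnWeight p.1 q.1 * slopeSq n (d p)
          ≤ ∑ p : box R, 2 * slopeSq n (d p) := Finset.sum_le_sum fun p _ => by
            rw [← Finset.sum_mul]
            exact mul_le_mul_of_nonneg_right (sum_nnWeight_le R p.1) (slopeSq_nonneg _ _)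
        _ ≤ 16 * H := by rw [← Finset.mul_sum]; linarith
    have hB : ∑ p : box R, ∑ q : box R, nnWeight p.1 q.1 * slopeSq n (d q) ≤ 16 * H := by
      rw [Finset.sum_comm]
      refine le_of_eq_of_le (Finset.sum_congr rfl fun p _ => Finset.sum_congr rfl fun q _ => ?_) hA
      rw [show nnWeight q.1 p.1 = nnWeight p.1 q.1 by
        simp only [nnWeight]; rw [abs_sub_comm, abs_sub_comm q.1.2]]
    have h32 := mul_le_mul_of_nonneg_left (add_le_add hA hB)
      (show 0 ≤ b * l ^ 2 by positivity)
    linarith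
  have hlog : Real.log ((n : ℝ) + 1) ≤ H := by
    have h := log_add_one_le_harmonic n
    simp only [harmonic, Rat.cast_sum, Rat.cast_inv, Rat.cast_natCast] at h
    push_cast at h
    simpa [hH] using h
  rw [show supDist x.1 y.1 = (n : ℝ) from rfl, Real.rpow_def_of_pos (by positivity)]
  refine Real.exp_le_exp.2 ?_
  rw [hx, hy]
  have e : l - 32 * b * l ^ 2 = 1 / (128 * b) := by rw [hl]; field_simp; ring
  have := mul_le_mul_of_nonneg_left hlog (show 0 ≤ 1 / (128 * b) by positivity)
  rw [← e] at this ⊢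
  nlinarith [hsum]

end Vale.Agent.P159
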