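import Vale.Agent.P159.Defs

/-!
# Positive cones of functions on tori

Two sources of positivity used for the plane rotator: polynomials with nonnegative coefficients in
the cosines and sines of the angles have nonnegative integrals, and so do sums of tensor squares.
Both survive multiplication by exponentials of elements of the same cone.
-/

namespace Vale.Agent.P159

open MeasureTheory Filter Topology
open scoped Real

/-- The circle of angles. -/
abbrev Circ : Type := AddCircle (2 * π)

/-- The cosine of an angle. -/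
noncomputable def cosC (t : Circ) : ℝ := Real.Angle.cos t

/-- The sine of an angle. -/
noncomputable def sinC (t : Circ) : ℝ := Real.Angle.sin t

@[fun_prop]
lemma continuous_cosC : Continuous cosC := Real.Angle.continuous_cos

@[fun_prop]
lemma continuous_sinC : Continuous sinC := Real.Angle.continuous_sin

lemma cosC_coe (x : ℝ) : cosC (x : Circ) = Real.cos x := Real.Angle.cos_coe x

lemma sinC_coe (x : ℝ) : sinC (x : Circ) = Real.sin x := Real.Angle.sin_coe x

lemma cosC_zero : cosC 0 = 1 := Real.Angle.cos_zero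

lemma sinC_zero : sinC 0 = 0 := Real.Angle.sin_zero

lemma cosC_neg (t : Circ) : cosC (-t) = cosC t := Real.Angle.cos_neg t

lemma sinC_neg (t : Circ) : sinC (-t) = -sinC t := Real.Angle.sin_neg t

lemma cosC_add (s t : Circ) : cosC (s + t) = cosC s * cosC t - sinC s * sinC t :=
  Real.Angle.cos_add s t

lemma sinC_add (s t : Circ) : sinC (s + t) = sinC s * cosC t + cosC s * sinC t :=
  Real.Angle.sin_add s t

lemma cosC_sub (s t : Circ) : cosC (s - t) = cosC s * cosC t + sinC s * sinC t := by
  rw [sub_eq_add_neg, cosC_add, cosC_neg, sinC_neg]; ring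

lemma sinC_sub (s t : Circ) : sinC (s - t) = sinC s * cosC t - cosC s * sinC t := by
  rw [sub_eq_add_neg, sinC_add, cosC_neg, sinC_neg]; ring

lemma abs_cosC_le_one (t : Circ) : |cosC t| ≤ 1 := by
  induction t using QuotientAddGroup.induction_on with
  | _ x => exact (congrArg abs (cosC_coe x)).trans_le (Real.abs_cos_le_one x)

/-- The product Haar probability measure on the angles indexed by `V`. -/
noncomputable def torus (V : Type*) [Fintype V] : Measure (V → Circ) :=
  Measure.pi fun _ => AddCircle.haarAddCircle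

instance torus_isProbabilityMeasure (V : Type*) [Fintype V] :
    IsProbabilityMeasure (torus V) := by
  unfold torus; infer_instance

instance torus_isAddHaarMeasure (V : Type*) [Fintype V] :
    Measure.IsAddHaarMeasure (torus V) := by
  unfold torus; infer_instance

instance torus_pairBorel (V : Type*) [Fintype V] : BorelSpace ((V → Circ) × (V → Circ)) :=
  Prod.borelSpace

instance torus_pairHaar (V : Type*) [Fintype V] :
    Measure.IsAddHaarMeasure ((torus V).prod (torus V)) :=
  Measure.prod.instIsAddHaarMeasure (torus V) (torus V)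

section Generic

variable {X : Type*} [TopologicalSpace X] [CompactSpace X] [MeasurableSpace X]
  [OpensMeasurableSpace X] {μ : Measure X} [IsFiniteMeasure μ]

lemma integrable_cont {f : X → ℝ} (hf : Continuous f) : Integrable f μ := by
  obtain ⟨C, hC⟩ := isCompact_univ.exists_bound_of_continuousOn hf.continuousOn
  exact Integrable.of_bound hf.aestronglyMeasurable C
    (Eventually.of_forall fun x => hC x (Set.mem_univ x))

/-- Positivity of integrals over a cone passes to products with exponentials. -/
lemma integral_mul_exp_nonneg (S : Subsemiring (X → ℝ)) (hcont : ∀ f ∈ S, Continuous f)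
    (hnn : ∀ f ∈ S, 0 ≤ ∫ x, f x ∂μ) (hconst : ∀ r : ℝ, 0 ≤ r → (fun _ => r) ∈ S)
    {f g : X → ℝ} (hf : f ∈ S) (hg : g ∈ S) :
    0 ≤ ∫ x, f x * Real.exp (g x) ∂μ := by
  set P : ℕ → X → ℝ := fun N x => f x * ∑ n ∈ Finset.range N, g x ^ n / n.factorial with hP
  have hmem : ∀ N, P N ∈ S := by
    intro N
    have h : P N = f * ∑ n ∈ Finset.range N, (fun _ => ((n.factorial : ℝ))⁻¹) * g ^ n := by
      funext x
      simp [hP, Finset.sum_apply, div_eq_inv_mul]
    rw [h]
    exact S.mul_mem hf (S.sum_mem fun n _ => S.mul_mem (hconst _ (by positivity)) (S.pow_mem hg n))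
  have hlim : Tendsto (fun N => ∫ x, P N x ∂μ) atTop (𝓝 (∫ x, f x * Real.exp (g x) ∂μ)) := by
    refine tendsto_integral_of_dominated_convergence (fun x => |f x| * Real.exp |g x|)
      (fun N => (hcont _ (hmem N)).aestronglyMeasurable)
      (integrable_cont ((hcont f hf).abs.mul (Real.continuous_exp.comp (hcont g hg).abs))) ?_ ?_
    · intro N
      refine Eventually.of_forall fun x => ?_
      rw [Real.norm_eq_abs, hP, abs_mul]
      refine mul_le_mul_of_nonneg_left ?_ (abs_nonneg _)
      calc |∑ n ∈ Finset.range N, g x ^ n / n.factorial|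
          ≤ ∑ n ∈ Finset.range N, |g x ^ n / n.factorial| := Finset.abs_sum_le_sum_abs _ _
        _ = ∑ n ∈ Finset.range N, |g x| ^ n / n.factorial := by simp [abs_div, abs_pow]
        _ ≤ Real.exp |g x| := Real.sum_le_exp_of_nonneg (abs_nonneg _) N
    · refine Eventually.of_forall fun x => ?_
      refine Tendsto.const_mul (f x) ?_
      have h := (NormedSpace.expSeries_div_hasSum_exp (g x)).tendsto_sum_nat
      rwa [← Real.exp_eq_exp_ℝ] at h
  exact ge_of_tendsto' hlim fun N => hnn _ (hmem N)

end Generic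

section Monomials

variable {V : Type*} [Fintype V]

lemma integral_cos_pow_mul_sin_pow_nonneg (a b : ℕ) :
    0 ≤ ∫ t : Circ, cosC t ^ a * sinC t ^ b ∂AddCircle.haarAddCircle := by
  rcases Nat.even_or_odd b with hb | hb
  · rcases Nat.even_or_odd a with ha | ha
    · exact integral_nonneg fun t => mul_nonneg (ha.pow_nonneg _) (hb.pow_nonneg _)
    · have h := integral_sub_left_eq_self (fun t : Circ => cosC t ^ a * sinC t ^ b)
        AddCircle.haarAddCircle ((π : ℝ) : Circ)
      have e : (fun t : Circ => cosC ((π : ℝ) - t : Circ) ^ a * sinC ((π : ℝ) - t : Circ) ^ b)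
          = fun t => -(cosC t ^ a * sinC t ^ b) := by
        funext t
        simp [cosC_sub, sinC_sub, cosC_coe, sinC_coe, ha.neg_pow]
      rw [e, integral_neg] at h
      linarith
  · have h := integral_neg_eq_self (fun t : Circ => cosC t ^ a * sinC t ^ b)
      AddCircle.haarAddCircle
    have e : (fun t : Circ => cosC (-t) ^ a * sinC (-t) ^ b)
        = fun t => -(cosC t ^ a * sinC t ^ b) := by
      funext t
      simp [cosC_neg, sinC_neg, hb.neg_pow]
    rw [e, integral_neg] at h
    linarith

/-- Nonnegative multiples of monomials in cosines and sines. -/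
def monomials (V : Type*) [Fintype V] : Submonoid ((V → Circ) → ℝ) where
  carrier := {f | ∃ r : ℝ, 0 ≤ r ∧ ∃ a b : V → ℕ,
    f = fun θ => r * ∏ x, cosC (θ x) ^ a x * sinC (θ x) ^ b x}
  one_mem' := ⟨1, zero_le_one, 0, 0, by funext θ; simp⟩
  mul_mem' := by
    rintro f g ⟨r, hr, a, b, rfl⟩ ⟨s, hs, c, d, rfl⟩
    refine ⟨r * s, mul_nonneg hr hs, a + c, b + d, ?_⟩
    funext θ
    simp only [Pi.mul_apply, Pi.add_apply, pow_add]
    rw [mul_mul_mul_comm, ← Finset.prod_mul_distrib]
    congr 1
    exact Finset.prod_congr rfl fun x _ => by ring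

/-- Polynomials in the cosines and sines with nonnegative coefficients. -/
def posPoly (V : Type*) [Fintype V] : Subsemiring ((V → Circ) → ℝ) :=
  Subsemiring.closure (monomials V : Set ((V → Circ) → ℝ))

lemma posPoly_induction {p : ((V → Circ) → ℝ) → Prop} {f : (V → Circ) → ℝ} (hf : f ∈ posPoly V)
    (hmono : ∀ r : ℝ, 0 ≤ r → ∀ a b : V → ℕ,
      p (fun θ => r * ∏ x, cosC (θ x) ^ a x * sinC (θ x) ^ b x))
    (hzero : p 0) (hadd : ∀ g h, p g → p h → p (g + h)) : p f := by
  rw [posPoly, Subsemiring.mem_closure_iff, Submonoid.closure_eq] at hf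
  induction hf using AddSubmonoid.closure_induction with
  | mem g hg => obtain ⟨r, hr, a, b, rfl⟩ := hg; exact hmono r hr a b
  | zero => exact hzero
  | add g h _ _ hg hh => exact hadd g h hg hh

lemma posPoly_continuous {f : (V → Circ) → ℝ} (hf : f ∈ posPoly V) : Continuous f := by
  refine posPoly_induction hf (fun r _ a b => ?_) continuous_const fun g h hg hh => hg.add hh
  exact continuous_const.mul (continuous_finsetProd _ fun x _ =>
    ((continuous_cosC.comp (continuous_apply x)).pow _).mul
      ((continuous_sinC.comp (continuous_apply x)).pow _))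

lemma posPoly_integral_nonneg {f : (V → Circ) → ℝ} (hf : f ∈ posPoly V) :
    0 ≤ ∫ θ, f θ ∂torus V := by
  refine (posPoly_induction (p := fun f => Continuous f ∧ 0 ≤ ∫ θ, f θ ∂torus V) hf
    (fun r hr a b => ⟨?_, ?_⟩) ⟨continuous_const, by simp⟩ ?_).2
  · exact continuous_const.mul (continuous_finsetProd _ fun x _ =>
      ((continuous_cosC.comp (continuous_apply x)).pow _).mul
        ((continuous_sinC.comp (continuous_apply x)).pow _))
  · rw [integral_const_mul, torus,
      integral_fintype_prod_eq_prod (fun x t => cosC t ^ a x * sinC t ^ b x)]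
    exact mul_nonneg hr (Finset.prod_nonneg fun x _ => integral_cos_pow_mul_sin_pow_nonneg _ _)
  · rintro g h ⟨hg, hg'⟩ ⟨hh, hh'⟩
    refine ⟨hg.add hh, ?_⟩
    simp only [Pi.add_apply]
    rw [integral_add (integrable_cont hg) (integrable_cont hh)]
    exact add_nonneg hg' hh'

lemma const_mem_posPoly {r : ℝ} (hr : 0 ≤ r) : (fun _ => r) ∈ posPoly V :=
  Subsemiring.subset_closure ⟨r, hr, 0, 0, by funext θ; simp⟩

lemma cos_mem_posPoly (x : V) : (fun θ => cosC (θ x)) ∈ posPoly V := by
  classical
  refine Subsemiring.subset_closure ⟨1, zero_le_one, Pi.single x 1, 0, ?_⟩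
  funext θ
  simp [Pi.single_apply, Finset.prod_ite_eq']

lemma sin_mem_posPoly (x : V) : (fun θ => sinC (θ x)) ∈ posPoly V := by
  classical
  refine Subsemiring.subset_closure ⟨1, zero_le_one, 0, Pi.single x 1, ?_⟩
  funext θ
  simp [Pi.single_apply, Finset.prod_ite_eq']

lemma cosDiff_mem_posPoly (x y : V) : (fun θ => cosC (θ x - θ y)) ∈ posPoly V := by
  have h := (posPoly V).add_mem ((posPoly V).mul_mem (cos_mem_posPoly x) (cos_mem_posPoly y))
    ((posPoly V).mul_mem (sin_mem_posPoly x) (sin_mem_posPoly y))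
  convert h using 1
  funext θ
  simp [cosC_sub]

lemma posPoly_exp_nonneg {f g : (V → Circ) → ℝ} (hf : f ∈ posPoly V) (hg : g ∈ posPoly V) :
    0 ≤ ∫ θ, f θ * Real.exp (g θ) ∂torus V :=
  integral_mul_exp_nonneg (posPoly V) (fun _ => posPoly_continuous)
    (fun _ => posPoly_integral_nonneg) (fun _ => const_mem_posPoly) hf hg

end Monomials

section Doubled

variable {V : Type*} [Fintype V]

/-- Tensor squares of continuous functions, with nonnegative coefficients. -/
def squares (V : Type*) [Fintype V] : Submonoid ((V → Circ) × (V → Circ) → ℝ) where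
  carrier := {F | ∃ r : ℝ, 0 ≤ r ∧ ∃ f : (V → Circ) → ℝ, Continuous f ∧
    F = fun p => r * (f p.1 * f p.2)}
  one_mem' := ⟨1, zero_le_one, 1, continuous_const, by funext p; simp⟩
  mul_mem' := by
    rintro F G ⟨r, hr, f, hf, rfl⟩ ⟨s, hs, g, hg, rfl⟩
    refine ⟨r * s, mul_nonneg hr hs, f * g, hf.mul hg, ?_⟩
    funext p; simp only [Pi.mul_apply]; ring

/-- Sums of tensor squares. -/
def sqCone (V : Type*) [Fintype V] : Subsemiring ((V → Circ) × (V → Circ) → ℝ) :=
  Subsemiring.closure (squares V : Set ((V → Circ) × (V → Circ) → ℝ))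

/-- Tensor products of positive polynomials. -/
def tensors (V : Type*) [Fintype V] : Submonoid ((V → Circ) × (V → Circ) → ℝ) where
  carrier := {F | ∃ f ∈ posPoly V, ∃ g ∈ posPoly V, F = fun p => f p.1 * g p.2}
  one_mem' := ⟨1, one_mem _, 1, one_mem _, by funext p; simp⟩
  mul_mem' := by
    rintro F G ⟨f, hf, g, hg, rfl⟩ ⟨f', hf', g', hg', rfl⟩
    refine ⟨f * f', mul_mem hf hf', g * g', mul_mem hg hg', ?_⟩
    funext p; simp only [Pi.mul_apply]; ring

/-- Positive polynomials in two independent configurations. -/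
def pairCone (V : Type*) [Fintype V] : Subsemiring ((V → Circ) × (V → Circ) → ℝ) :=
  Subsemiring.closure (tensors V : Set ((V → Circ) × (V → Circ) → ℝ))

lemma closure_cont_nonneg (M : Submonoid ((V → Circ) × (V → Circ) → ℝ))
    (hM : ∀ F ∈ M, Continuous F ∧ 0 ≤ ∫ p, F p ∂(torus V).prod (torus V))
    {F : (V → Circ) × (V → Circ) → ℝ}
    (hF : F ∈ Subsemiring.closure (M : Set ((V → Circ) × (V → Circ) → ℝ))) :
    Continuous F ∧ 0 ≤ ∫ p, F p ∂(torus V).prod (torus V) := by
  rw [Subsemiring.mem_closure_iff, Submonoid.closure_eq] at hF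
  induction hF using AddSubmonoid.closure_induction with
  | mem g hg => exact hM g hg
  | zero => exact ⟨continuous_const, by simp⟩
  | add g h _ _ hg hh =>
    refine ⟨hg.1.add hh.1, ?_⟩
    simp only [Pi.add_apply]
    rw [integral_add (integrable_cont hg.1) (integrable_cont hh.1)]
    exact add_nonneg hg.2 hh.2

lemma sqCone_spec {F : (V → Circ) × (V → Circ) → ℝ} (hF : F ∈ sqCone V) :
    Continuous F ∧ 0 ≤ ∫ p, F p ∂(torus V).prod (torus V) := by
  refine closure_cont_nonneg (squares V) ?_ hF
  rintro G ⟨r, hr, f, hf, rfl⟩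
  refine ⟨continuous_const.mul ((hf.comp continuous_fst).mul (hf.comp continuous_snd)), ?_⟩
  rw [integral_const_mul, integral_prod_mul]
  exact mul_nonneg hr (mul_self_nonneg _)

lemma pairCone_spec {F : (V → Circ) × (V → Circ) → ℝ} (hF : F ∈ pairCone V) :
    Continuous F ∧ 0 ≤ ∫ p, F p ∂(torus V).prod (torus V) := by
  refine closure_cont_nonneg (tensors V) ?_ hF
  rintro G ⟨f, hf, g, hg, rfl⟩
  refine ⟨((posPoly_continuous hf).comp continuous_fst).mul
    ((posPoly_continuous hg).comp continuous_snd), ?_⟩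
  rw [integral_prod_mul]
  exact mul_nonneg (posPoly_integral_nonneg hf) (posPoly_integral_nonneg hg)

lemma const_mem_sqCone {r : ℝ} (hr : 0 ≤ r) : (fun _ => r) ∈ sqCone V :=
  Subsemiring.subset_closure ⟨r, hr, 1, continuous_const, by funext p; simp⟩

lemma tensor_mem_sqCone {r : ℝ} (hr : 0 ≤ r) {f : (V → Circ) → ℝ} (hf : Continuous f) :
    (fun p => r * (f p.1 * f p.2)) ∈ sqCone V :=
  Subsemiring.subset_closure ⟨r, hr, f, hf, rfl⟩

lemma tensor_mem_pairCone {f g : (V → Circ) → ℝ} (hf : f ∈ posPoly V) (hg : g ∈ posPoly V) :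
    (fun p => f p.1 * g p.2) ∈ pairCone V :=
  Subsemiring.subset_closure ⟨f, hf, g, hg, rfl⟩

lemma const_mem_pairCone {r : ℝ} (hr : 0 ≤ r) : (fun _ => r) ∈ pairCone V := by
  simpa using tensor_mem_pairCone (const_mem_posPoly (V := V) hr) (one_mem (posPoly V))

lemma sqCone_exp_nonneg {F G : (V → Circ) × (V → Circ) → ℝ} (hF : F ∈ sqCone V)
    (hG : G ∈ sqCone V) : 0 ≤ ∫ p, F p * Real.exp (G p) ∂(torus V).prod (torus V) :=
  integral_mul_exp_nonneg (sqCone V) (fun _ h => (sqCone_spec h).1)
    (fun _ h => (sqCone_spec h).2) (fun _ => const_mem_sqCone) hF hG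

lemma pairCone_exp_nonneg {F G : (V → Circ) × (V → Circ) → ℝ} (hF : F ∈ pairCone V)
    (hG : G ∈ pairCone V) : 0 ≤ ∫ p, F p * Real.exp (G p) ∂(torus V).prod (torus V) :=
  integral_mul_exp_nonneg (pairCone V) (fun _ h => (pairCone_spec h).1)
    (fun _ h => (pairCone_spec h).2) (fun _ => const_mem_pairCone) hF hG

end Doubled

end Vale.Agent.P159
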